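import Vale.Agent.P127.Lin0

/-! # P127 Lin1/Defs (owner helper91, no task): definitions and basic geometry for the triangle count.
S is the complement of j0, gv z spans the kernel of P z, 1 / N ≤ η ^ 2 = 1 / H. -/

namespace Vale.Agent.P127.L1

open Finset
open scoped Classical

noncomputable section

variable {D : ℕ}

/-- the direction killed by `P z` -/
def gv (d : Dat D) (j0 : Fin D) (z : ℝ) : V D := fun l => if l = j0 then 1 else -d.P z l j0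

/-- standing hypotheses -/
structure Hy (σ : ℝ) (m : ℕ) (d : Dat D) (j0 : Fin D) (N H K η : ℝ) : Prop where
  reg : Reg σ m d N H K
  hm : m + 1 = D
  mem : ∀ j, j ∈ d.S ↔ j ≠ j0
  l1 : Lip1 d K (η ^ 2)
  lf : LipF d K (η ^ 2)
  N1 : 1 ≤ N
  K2 : 2 ≤ K
  η0 : 0 < η
  Kη : K * η ≤ 1
  Hη : H * η ^ 2 = 1
  Nη : 1 / N ≤ η ^ 2

/-- the natural mass of a cell of side `1 / N` -/
def m0 (σ : ℝ) (d : Dat D) (N : ℝ) : ℝ := d.c.nL * (1 / N) ^ ((D : ℝ) - σ)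

/-- the lines `i`, `i'` meet at height `z` -/
def Mee (d : Dat D) (N : ℝ) (i i' : ℕ) (z : ℝ) : Prop :=
  (i, z) ∈ d.c.E ∧ (i', z) ∈ d.c.E ∧ ‖d.c.pos (i, z) - d.c.pos (i', z)‖ ≤ 1 / N

/-- wedges -/
def Wg (d : Dat D) (j0 : Fin D) (N η γ : ℝ) (i i' : ℕ) (z0 z1 : ℝ) : Prop :=
  Mee d N i i' z0 ∧ (i', z1) ∈ d.c.E ∧ cz η z0 = cz η z1 ∧ γ ≤ |d.c.e i j0 - d.c.e i' j0|

/-- triangles -/
def Tri (d : Dat D) (j0 : Fin D) (N η γ : ℝ) (i i' i'' : ℕ) (z0 z0' z1 : ℝ) : Prop :=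
  Wg d j0 N η γ i i' z0 z1 ∧ Wg d j0 N η γ i i'' z0' z1 ∧
    ‖d.c.pos (i', z1) - d.c.pos (i'', z1)‖ ≤ η ^ 2

/-- the type of a line -/
def ty (d : Dat D) (j0 : Fin D) (η : ℝ) (i : ℕ) : ℤ := cz η (d.c.e i j0)

/-- the set of wedges `(i, i', z0, z1)` -/
def WG (d : Dat D) (j0 : Fin D) (N η γ : ℝ) : Finset (ℕ × ℕ × ℝ × ℝ) :=
  (d.c.L ×ˢ d.c.L ×ˢ d.c.Z ×ˢ d.c.Z).filter fun w => Wg d j0 N η γ w.1 w.2.1 w.2.2.1 w.2.2.2

/-- the set of triangles `(i, i', i'', z0, z0', z1)` -/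
def QQ (d : Dat D) (j0 : Fin D) (N η γ : ℝ) : Finset (ℕ × ℕ × ℕ × ℝ × ℝ × ℝ) :=
  (d.c.L ×ˢ d.c.L ×ˢ d.c.L ×ˢ d.c.Z ×ˢ d.c.Z ×ˢ d.c.Z).filter fun w =>
    Tri d j0 N η γ w.1 w.2.1 w.2.2.1 w.2.2.2.1 w.2.2.2.2.1 w.2.2.2.2.2

/-- the tuple `(i, b, b', z0, z1)` of a triangle -/
def tup (d : Dat D) (j0 : Fin D) (η : ℝ) (w : ℕ × ℕ × ℕ × ℝ × ℝ × ℝ) : ℕ × ℤ × ℤ × ℝ × ℝ :=
  (w.1, ty d j0 η w.2.1, ty d j0 η w.2.2.1, w.2.2.2.1, w.2.2.2.2.2)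

/-- the set of tuples -/
def UU (d : Dat D) (j0 : Fin D) (N η γ : ℝ) : Finset (ℕ × ℤ × ℤ × ℝ × ℝ) :=
  (QQ d j0 N η γ).image (tup d j0 η)

/-- the types of the lines that meet `i` in the window `n` -/
def TY (d : Dat D) (j0 : Fin D) (N η : ℝ) (i : ℕ) (n : ℤ) : Finset ℤ :=
  (d.c.E.filter fun ω => Mee d N i ω.1 ω.2 ∧ cz η ω.2 = n).image fun ω => ty d j0 η ω.1

theorem pow_ge (C : ℝ) : ∃ c : ℕ, ∀ K : ℝ, 2 ≤ K → C ≤ K ^ c := by
  obtain ⟨c, hc⟩ := pow_unbounded_of_one_lt C (one_lt_two (α := ℝ))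
  exact ⟨c, fun K hK => hc.le.trans (pow_le_pow_left₀ zero_le_two hK c)⟩

theorem cz_corner {r : ℝ} (hr : 0 < r) (x : ℝ) : |x - r * cz r x| ≤ r := by
  have h1 := (le_div_iff₀ hr).1 (Int.floor_le (x / r))
  have h2 := (div_lt_iff₀ hr).1 (Int.lt_floor_add_one (x / r))
  rw [cz, abs_le]
  constructor <;> linarith

variable {σ : ℝ} {m : ℕ} {d : Dat D} {j0 : Fin D} {N H K η γ : ℝ} {i i' i'' : ℕ} {z z' z0 z0' z1 : ℝ}

namespace Hy

theorem K0 (h : Hy σ m d j0 N H K η) : 0 < K := by linarith [h.K2]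

theorem η2 (h : Hy σ m d j0 N H K η) : η ≤ 1 / 2 := by nlinarith [h.K2, h.Kη, h.η0]

theorem sq_le (h : Hy σ m d j0 N H K η) : η ^ 2 ≤ η := by nlinarith [h.η2, h.η0]

theorem H_eq (h : Hy σ m d j0 N H K η) : H = 1 / η ^ 2 :=
  eq_div_of_mul_eq (pow_pos h.η0 2).ne' h.Hη

theorem invH (h : Hy σ m d j0 N H K η) : 1 / H = η ^ 2 := by rw [h.H_eq, one_div_one_div]

theorem H1 (h : Hy σ m d j0 N H K η) : 1 ≤ H := by
  rw [h.H_eq]
  exact one_le_one_div (pow_pos h.η0 2) (by linarith [h.sq_le, h.η2])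

theorem nL0 (h : Hy σ m d j0 N H K η) : 0 < d.c.nL := h.reg.good.nL_pos

theorem m0_pos (h : Hy σ m d j0 N H K η) : 0 < m0 σ d N :=
  mul_pos h.nL0 (Real.rpow_pos_of_pos (one_div_pos.2 (by linarith [h.N1])) _)

theorem memL (h : Hy σ m d j0 N H K η) (hi : (i, z) ∈ d.c.E) : i ∈ d.c.L :=
  (mem_product.1 (h.reg.good.sub hi)).1

theorem memZ (h : Hy σ m d j0 N H K η) (hi : (i, z) ∈ d.c.E) : z ∈ d.c.Z :=
  (mem_product.1 (h.reg.good.sub hi)).2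

theorem cardL (h : Hy σ m d j0 N H K η) : (d.c.L.card : ℝ) ≤ K * d.c.nL :=
  h.reg.good.toPre.cardL h.N1

theorem cardZ (h : Hy σ m d j0 N H K η) : (d.c.Z.card : ℝ) ≤ K / η ^ 2 := by
  have := h.reg.good.toPre.cardZ h.H1
  rwa [h.H_eq, mul_one_div] at this

theorem mass (h : Hy σ m d j0 N H K η) : d.c.nL / (η ^ 2 * K) ≤ d.c.E.card := by
  have := h.reg.good.mass
  rwa [h.H_eq, mul_one_div, div_div] at this

/-- heights in an interval -/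
theorem hts (h : Hy σ m d j0 N H K η) (a : ℝ) {r : ℝ} (hr : η ^ 2 ≤ r) :
    ((d.c.Z.filter fun z => |z - a| ≤ r).card : ℝ) ≤ K * r / η ^ 2 := by
  have := h.reg.good.hts a r (h.invH ▸ hr)
  rwa [h.H_eq, mul_one_div] at this

/-- heights in a window -/
theorem win (h : Hy σ m d j0 N H K η) (n : ℤ) :
    ((d.c.Z.filter fun z => cz η z = n).card : ℝ) ≤ K / η := by
  refine (Nat.cast_le.2 (card_le_card (monotone_filter_right _ fun z _ hz => ?_))).trans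
    ((h.hts (η * n) h.sq_le).trans_eq ?_)
  · exact hz ▸ cz_corner h.η0 z
  · have := h.η0
    field_simp

/-- the number of windows -/
theorem wins (h : Hy σ m d j0 N H K η) {Ω : Type} (F : Finset Ω) (a : Ω → ℝ)
    (ha : ∀ ω ∈ F, a ω ∈ d.c.Z) : ((F.image fun ω => cz η (a ω)).card : ℝ) ≤ 2 / η := by
  refine (cover_z F a (1 / 2) h.η0 (by norm_num : (0 : ℝ) ≤ 1 / 2) fun ω hω => ?_).trans ?_
  · have := h.reg.good.bz _ (ha ω hω)
    exact abs_le.2 ⟨by linarith, by linarith⟩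
  · rw [div_add' _ _ _ h.η0.ne']
    exact div_le_div_of_nonneg_right (by linarith [h.η2]) h.η0.le

theorem norm_e (h : Hy σ m d j0 N H K η) (hi : (i, z) ∈ d.c.E) : ‖d.c.e i‖ ≤ 1 :=
  h.reg.good.be i (h.memL hi)

theorem abs_e (h : Hy σ m d j0 N H K η) (hi : (i, z) ∈ d.c.E) : |d.c.e i j0| ≤ 1 :=
  (norm_le_pi_norm (d.c.e i) j0).trans (h.norm_e hi)

theorem abs_sub_e (h : Hy σ m d j0 N H K η) (hi : (i, z) ∈ d.c.E) (hi' : (i', z') ∈ d.c.E) :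
    |d.c.e i j0 - d.c.e i' j0| ≤ 2 :=
  (abs_sub _ _).trans (by linarith [h.abs_e hi, h.abs_e hi'])

theorem ty_close (h : Hy σ m d j0 N H K η) (i : ℕ) : |d.c.e i j0 - η * ty d j0 η i| ≤ η :=
  cz_corner h.η0 _

theorem dec (h : Hy σ m d j0 N H K η) (z : ℝ) (v : V D) :
    v - v j0 • gv d j0 z = mv (d.P z) v := by
  funext l
  obtain ⟨h1, h2, -⟩ := h.reg.gr z
  by_cases hl : l = j0
  · subst hl
    simp [gv, mv, h1 l fun k => (h.mem l).1 k rfl]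
  · have hS := (h.mem l).2 hl
    rw [mv, ← add_sum_erase _ _ (mem_univ j0), sum_eq_single l (fun j hj k => by
      rw [h2 l hS j ((h.mem j).2 (ne_of_mem_erase hj)), if_neg k.symm, zero_mul])
      fun k => absurd (mem_erase.2 ⟨hl, mem_univ l⟩) k, h2 l hS l hS]
    simp [gv, hl]
    ring

theorem norm_gv (h : Hy σ m d j0 N H K η) (z : ℝ) : ‖gv d j0 z‖ ≤ 2 := by
  refine (pi_norm_le_iff_of_nonneg zero_le_two).2 fun l => ?_
  have := (h.reg.gr z).2.2 l j0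
  rw [h.reg.card_S, show D - m = 1 by have := h.hm; omega, pow_one] at this
  unfold gv
  split_ifs
  · simp
  · rwa [norm_neg]

theorem P_lip (h : Hy σ m d j0 N H K η) (hi : (i, z) ∈ d.c.E) (hi' : (i', z') ∈ d.c.E)
    (hz : |z - z'| ≤ η) : ‖d.P z - d.P z'‖ ≤ 2 * K * η := by
  refine (h.lf _ hi _ hi').trans ?_
  have := mul_le_mul_of_nonneg_left (add_le_add hz h.sq_le) h.K0.le
  linarith

theorem gv_lip (h : Hy σ m d j0 N H K η) (hi : (i, z) ∈ d.c.E) (hi' : (i', z') ∈ d.c.E)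
    (hz : |z - z'| ≤ η) : ‖gv d j0 z - gv d j0 z'‖ ≤ 2 * K * η := by
  refine le_trans ((pi_norm_le_iff_of_nonneg (norm_nonneg _)).2 fun l => ?_) (h.P_lip hi hi' hz)
  simp only [gv, Pi.sub_apply]
  split_ifs
  · simp
  · rw [neg_sub_neg, norm_sub_rev]
    exact (norm_le_pi_norm ((d.P z - d.P z') l) j0).trans (norm_le_pi_norm _ l)

/-- directions of two lines that are close at height `z` -/
theorem dir (h : Hy σ m d j0 N H K η) (hi : (i, z) ∈ d.c.E) (hi' : (i', z) ∈ d.c.E)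
    (hp : ‖d.c.pos (i, z) - d.c.pos (i', z)‖ ≤ η ^ 2) :
    ‖d.c.e i - d.c.e i' - (d.c.e i j0 - d.c.e i' j0) • gv d j0 z‖ ≤ 2 * K * η ^ 2 := by
  have h1 := h.l1 _ hi _ hi' rfl
  rw [Dat.s, Dat.s, ← mv_sub, ← h.dec] at h1
  have := mul_le_mul_of_nonneg_left (add_le_add hp (le_refl (η ^ 2))) h.K0.le
  exact h1.trans (by linarith)

theorem dirM (h : Hy σ m d j0 N H K η) (hM : Mee d N i i' z) :
    ‖d.c.e i - d.c.e i' - (d.c.e i j0 - d.c.e i' j0) • gv d j0 z‖ ≤ 2 * K * η ^ 2 :=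
  h.dir hM.1 hM.2.1 (hM.2.2.trans h.Nη)

/-- the same with the kernel direction at a nearby height -/
theorem dirW (h : Hy σ m d j0 N H K η) (hM : Mee d N i i' z) (h' : (i'', z') ∈ d.c.E)
    (hz : |z - z'| ≤ η) :
    ‖d.c.e i - d.c.e i' - (d.c.e i j0 - d.c.e i' j0) • gv d j0 z'‖ ≤ 6 * K * η := by
  have h1 := h.dirM hM
  have h2 := mul_le_mul (h.abs_sub_e hM.1 hM.2.1) (h.gv_lip hM.1 h' hz) (norm_nonneg _) zero_le_two
  have h3 := norm_add_le (d.c.e i - d.c.e i' - (d.c.e i j0 - d.c.e i' j0) • gv d j0 z)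
    ((d.c.e i j0 - d.c.e i' j0) • (gv d j0 z - gv d j0 z'))
  rw [norm_smul, Real.norm_eq_abs, smul_sub, sub_add_sub_cancel] at h3
  have h4 := mul_le_mul_of_nonneg_left h.sq_le h.K0.le
  linarith

/-- the end point of a wedge -/
theorem endp (h : Hy σ m d j0 N H K η) (hM : Mee d N i i' z0) (z1 : ℝ) :
    ‖d.c.pos (i', z1) - (d.c.pos (i, z1) - (z1 - z0) • (d.c.e i - d.c.e i'))‖ ≤ η ^ 2 := by
  refine le_trans (le_of_eq ?_) (hM.2.2.trans h.Nη)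
  rw [pos_shift _ i' z0 z1, pos_shift _ i z0 z1, smul_sub, norm_sub_rev]
  congr 1
  abel

/-- the closing condition for the heights -/
theorem close (h : Hy σ m d j0 N H K η) (hT : Tri d j0 N η γ i i' i'' z0 z0' z1) :
    |(z1 - z0) * (d.c.e i j0 - d.c.e i' j0) - (z1 - z0') * (d.c.e i j0 - d.c.e i'' j0)| ≤
      3 * η ^ 2 := by
  have h1 := abs_le.1 ((norm_le_pi_norm _ j0).trans (h.endp hT.1.1 z1))
  have h2 := abs_le.1 ((norm_le_pi_norm _ j0).trans (h.endp hT.2.1.1 z1))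
  have h3 := abs_le.1 ((norm_le_pi_norm _ j0).trans hT.2.2)
  simp only [Pi.sub_apply, Pi.smul_apply, smul_eq_mul] at h1 h2 h3
  exact abs_le.2 ⟨by linarith [h1.1, h2.2, h3.2], by linarith [h1.2, h2.1, h3.1]⟩

theorem mem_WG (h : Hy σ m d j0 N H K η) :
    (i, i', z0, z1) ∈ WG d j0 N η γ ↔ Wg d j0 N η γ i i' z0 z1 := by
  simp only [WG, mem_filter, mem_product]
  exact ⟨And.right, fun k => ⟨⟨h.memL k.1.1, h.memL k.2.1, h.memZ k.1.1, h.memZ k.2.1⟩, k⟩⟩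

theorem mem_QQ (h : Hy σ m d j0 N H K η) :
    (i, i', i'', z0, z0', z1) ∈ QQ d j0 N η γ ↔ Tri d j0 N η γ i i' i'' z0 z0' z1 := by
  simp only [QQ, mem_filter, mem_product]
  exact ⟨And.right, fun k => ⟨⟨h.memL k.1.1.1, h.memL k.1.2.1, h.memL k.2.1.2.1, h.memZ k.1.1.1,
    h.memZ k.2.1.1.1, h.memZ k.1.2.1⟩, k⟩⟩

theorem mem_UU (h : Hy σ m d j0 N H K η) {b b' : ℤ} : (i, b, b', z0, z1) ∈ UU d j0 N η γ ↔
    ∃ i' i'' z0', Tri d j0 N η γ i i' i'' z0 z0' z1 ∧ ty d j0 η i' = b ∧ ty d j0 η i'' = b' := by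
  simp only [UU, mem_image]
  constructor
  · rintro ⟨⟨a1, a2, a3, a4, a5, a6⟩, h1, h2⟩
    simp only [tup, Prod.mk.injEq] at h2
    obtain ⟨rfl, rfl, rfl, rfl, rfl⟩ := h2
    exact ⟨a2, a3, a5, h.mem_QQ.1 h1, rfl, rfl⟩
  · rintro ⟨i', i'', z0', h1, rfl, rfl⟩
    exact ⟨_, h.mem_QQ.2 h1, rfl⟩

end Hy

theorem mem_TY {n : ℤ} (hM : Mee d N i i' z) (hn : cz η z = n) : ty d j0 η i' ∈ TY d j0 N η i n :=
  mem_image.2 ⟨(i', z), mem_filter.2 ⟨hM.2.1, hM, hn⟩, rfl⟩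

/-- many values with heavy fibres -/
theorem heavy {Ω β : Type} (U : Finset Ω) (f : Ω → β) {R M : ℝ} (hM : 0 < M)
    (hR : ((U.image f).card : ℝ) ≤ R)
    (hf : ∀ ω ∈ U, ((U.filter fun ω' => f ω' = f ω).card : ℝ) ≤ M) :
    ∃ B ⊆ U.image f, (U.card : ℝ) / (2 * M) ≤ B.card ∧
      ∀ b ∈ B, (U.card : ℝ) / (2 * R) ≤ ((U.filter fun ω => f ω = b).card : ℝ) := by
  obtain ⟨E', h1, h2, h3⟩ := pop1 U f hR
  refine ⟨E'.image f, image_subset_image h1, ?_, fun b hb => ?_⟩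
  · rw [← div_div, div_le_iff₀ hM]
    exact h2.trans (card_le_fib E' f fun ω hω => (Nat.cast_le.2 (card_le_card
      (filter_subset_filter _ h1))).trans (hf ω (h1 hω)))
  · obtain ⟨ω, hω, rfl⟩ := mem_image.1 hb
    exact (h3 ω hω).trans (Nat.cast_le.2 (card_le_card (filter_subset_filter _ h1)))

end

end Vale.Agent.P127.L1
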