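import Vale.Agent.P127.Dec
import Vale.Agent.P127.Lin1.Defs

/-! # P127 Lin1/Fib (TASK; helper names start with fib_)
The fibres of tup.  fib_lines: a line i' with Mee d N i i' z and ty i' = b has ‖e i' - p‖ ≤ 2 K η ^ 2 + 2 η ≤ 4 η for p = e i - (e i j0 - η b) • gv z (Hy.dirM, ty_close, norm_gv, K η ≤ 1), and pos (i', z) is within 1 / N of pos (i, z):
r1A with A = 4, α = η, β = 1 / N.  fib_hts: in a triangle with types b, b' put β = η b, β' = η b'; Hy.close, ty_close, cz_close (|z1 - z0| ≤ η, |z1 - z0'| ≤ η) give |(z1 - z0) (e i j0 - β) - (z1 - z0') (e i j0 - β')| ≤ 5 η ^ 2 and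
|e i j0 - β'| ≥ γ - η ≥ γ / 2, so |z0' - a| ≤ 10 η ^ 2 / γ with a = z1 - (z1 - z0) (e i j0 - β) / (e i j0 - β'); Hy.hts gives at most 10 K / γ such heights.
fib_ub: card_le_fib with tup; a fibre over (i, b, b', z0, z1) injects by w ↦ (i', z0', i'') into (lines for (z0, b)) × (sigma type or biUnion over z0' of lines for (z0', b')): use card_le_fib twice more or card_biUnion_le. -/

namespace Vale.Agent.P127.L1

open Finset
open scoped Classical

theorem fib_lines (D : ℕ) : ∃ c : ℕ, ∀ (σ : ℝ) (m : ℕ) (d : Dat D) (j0 : Fin D) (N H K η : ℝ),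
    Hy σ m d j0 N H K η → ∀ (i : ℕ) (z : ℝ) (b : ℤ),
    ((d.c.L.filter fun i' => Mee d N i i' z ∧ ty d j0 η i' = b).card : ℝ) ≤
      K ^ c * (m0 σ d N * η ^ σ) := by
  obtain ⟨C, hC, hr⟩ := r1A D
  obtain ⟨c, hc⟩ := pow_ge (C * 4 ^ (2 * D))
  refine ⟨c + 1, fun σ m d j0 N H K η h i z b => ?_⟩
  have hη := h.η0
  have h1 := hr h.reg h.N1 4 z η (1 / N)
    (d.c.e i - (d.c.e i j0 - η * b) • gv d j0 z) (d.c.pos (i, z)) (by norm_num) le_rfl
    (h.Nη.trans h.sq_le) (by linarith [h.η2])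
  refine (Nat.cast_le.2 (card_le_card (monotone_filter_right _ fun i' _ hi' => ?_))).trans
    (h1.trans ?_)
  · obtain ⟨hM, rfl⟩ := hi'
    refine ⟨hM.2.1, ?_, ?_⟩
    · have h2 := h.dirM hM
      have h3 := mul_le_mul (h.ty_close i') (h.norm_gv z) (norm_nonneg _) hη.le
      have h4 := norm_sub_le ((d.c.e i' j0 - η * ty d j0 η i') • gv d j0 z)
        (d.c.e i - d.c.e i' - (d.c.e i j0 - d.c.e i' j0) • gv d j0 z)
      rw [norm_smul, Real.norm_eq_abs] at h4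
      have h5 : d.c.e i' - (d.c.e i - (d.c.e i j0 - η * ty d j0 η i') • gv d j0 z) =
          (d.c.e i' j0 - η * ty d j0 η i') • gv d j0 z -
            (d.c.e i - d.c.e i' - (d.c.e i j0 - d.c.e i' j0) • gv d j0 z) := by
        simp only [sub_smul]
        abel
      rw [h5]
      nlinarith [mul_le_mul_of_nonneg_right h.Kη hη.le]
    · rw [norm_sub_rev]
      have : 0 < 1 / N := one_div_pos.2 (by linarith [h.N1])
      linarith [hM.2.2]
  · have h2 := mul_le_mul_of_nonneg_right (hc K h.K2)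
      (mul_pos h.K0 (mul_pos h.m0_pos (Real.rpow_pos_of_pos hη σ))).le
    rw [pow_succ]
    unfold m0 at h2 ⊢
    linarith

theorem fib_hts {D m : ℕ} {σ : ℝ} {d : Dat D} {j0 : Fin D} {N H K η γ : ℝ}
    (h : Hy σ m d j0 N H K η) (h1 : 2 * η ≤ γ) (h2 : γ ≤ 1) (i : ℕ) (b b' : ℤ) (z0 z1 : ℝ) :
    ((d.c.Z.filter fun z0' => ∃ i' i'', Tri d j0 N η γ i i' i'' z0 z0' z1 ∧ ty d j0 η i' = b ∧
      ty d j0 η i'' = b').card : ℝ) ≤ 10 * K / γ := by
  have hη := h.η0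
  have hγ : 0 < γ := by linarith
  have hr : η ^ 2 ≤ 10 * η ^ 2 / γ := by
    rw [le_div_iff₀ hγ]
    nlinarith [pow_pos hη 2]
  refine (Nat.cast_le.2 (card_le_card (monotone_filter_right _ fun z0' _ hz => ?_))).trans
    ((h.hts (z1 - (z1 - z0) * (d.c.e i j0 - η * b) / (d.c.e i j0 - η * b')) hr).trans_eq ?_)
  · obtain ⟨i', i'', hT, rfl, rfl⟩ := hz
    have h3 := h.close hT
    have h4 := h.ty_close i'
    have h5 := h.ty_close i''
    have h6 := cz_close hη hT.1.2.2.1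
    have h7 := cz_close hη hT.2.1.2.2.1
    have h8 := hT.2.1.2.2.2
    generalize d.c.e i j0 = x at *
    generalize d.c.e i' j0 = y at *
    generalize d.c.e i'' j0 = y' at *
    generalize η * (ty d j0 η i' : ℝ) = β at *
    generalize η * (ty d j0 η i'' : ℝ) = β' at *
    have h9 : γ / 2 ≤ |x - β'| := by
      have := abs_sub_le x β' y'
      rw [abs_sub_comm β' y'] at this
      linarith
    have h10 : x - β' ≠ 0 := abs_pos.1 (by linarith)
    have h11 : z0' - (z1 - (z1 - z0) * (x - β) / (x - β')) =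
        (((z1 - z0) * (x - y) - (z1 - z0') * (x - y')) - (z0 - z1) * (y - β) +
          (z0' - z1) * (y' - β')) / (x - β') := by
      field_simp
      ring
    have h12 : |(z0 - z1) * (y - β)| ≤ η * η := by
      rw [abs_mul]
      exact mul_le_mul h6 h4 (abs_nonneg _) hη.le
    have h13 : |(z0' - z1) * (y' - β')| ≤ η * η := by
      rw [abs_mul]
      exact mul_le_mul h7 h5 (abs_nonneg _) hη.le
    rw [h11, abs_div, div_le_iff₀ (by linarith)]
    have h14 : 5 * η ^ 2 ≤ 10 * η ^ 2 / γ * |x - β'| := by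
      refine le_trans (le_of_eq ?_) (mul_le_mul_of_nonneg_left h9 (by positivity))
      field_simp
      norm_num
    refine le_trans ?_ h14
    rw [abs_le] at h3 h12 h13 ⊢
    constructor <;> nlinarith
  · field_simp

theorem fib_gen {Ω β : Type} [DecidableEq β] (E : Finset Ω) (f : Ω → β) {M : ℝ}
    (h : ∀ ω ∈ E, ((E.filter fun ω' => f ω' = f ω).card : ℝ) ≤ M) :
    (E.card : ℝ) ≤ (E.image f).card * M := by
  simpa only [image_cd, filter_cd] using card_le_fib E f (M := M) fun ω hω => by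
    simpa only [image_cd, filter_cd] using h ω hω

theorem fib_ub (D : ℕ) : ∃ c : ℕ, ∀ (σ : ℝ) (m : ℕ) (d : Dat D) (j0 : Fin D) (N H K η γ : ℝ),
    Hy σ m d j0 N H K η → 2 * η ≤ γ → γ ≤ 1 →
    ((QQ d j0 N η γ).card : ℝ) ≤
      (UU d j0 N η γ).card * (K ^ c / γ * (m0 σ d N * η ^ σ) ^ 2) := by
  obtain ⟨c, hc⟩ := fib_lines D
  obtain ⟨c', hc'⟩ := pow_ge 10
  refine ⟨c' + 1 + c + c, fun σ m d j0 N H K η γ h h1 h2 => fib_gen _ _ ?_⟩
  rintro ⟨i, j, j', z0, y, z1⟩ -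
  have hη := h.η0
  have hγ : 0 < γ := by linarith
  have hK := h.K0
  have hm := (mul_pos h.m0_pos (Real.rpow_pos_of_pos hη σ)).le
  have h3 := hc σ m d j0 N H K η h i z0 (ty d j0 η j)
  have h4 := fib_hts h h1 h2 i (ty d j0 η j) (ty d j0 η j') z0 z1
  have h5 := fun z => hc σ m d j0 N H K η h i z (ty d j0 η j')
  obtain ⟨Hs, hHs⟩ : ∃ Hs, Hs = d.c.Z.filter fun z0' => ∃ i' i'',
    Tri d j0 N η γ i i' i'' z0 z0' z1 ∧ ty d j0 η i' = ty d j0 η j ∧
      ty d j0 η i'' = ty d j0 η j' := ⟨_, rfl⟩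
  obtain ⟨B, hB⟩ : ∃ B : ℝ → ℤ → Finset ℕ, ∀ z b,
    B z b = d.c.L.filter fun i' => Mee d N i i' z ∧ ty d j0 η i' = b := ⟨_, fun _ _ => rfl⟩
  rw [← hHs] at h4
  simp only [← hB] at h3 h5
  have h6 : ((QQ d j0 N η γ).filter fun w => tup d j0 η w = tup d j0 η (i, j, j', z0, y, z1)).card ≤
      (B z0 (ty d j0 η j) ×ˢ Hs.sigma fun z => B z (ty d j0 η j')).card := by
    refine card_le_card_of_injOn (fun w => (w.2.1, ⟨w.2.2.2.2.1, w.2.2.1⟩)) ?_ ?_
    · rintro ⟨a1, a2, a3, a4, a5, a6⟩ hw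
      obtain ⟨hw1, e⟩ := mem_filter.1 (mem_coe.1 hw)
      simp only [tup, Prod.mk.injEq] at e
      obtain ⟨rfl, e2, e3, rfl, rfl⟩ := e
      have hT := h.mem_QQ.1 hw1
      rw [mem_coe, mem_product, mem_sigma, hB, hB, hHs, mem_filter, mem_filter, mem_filter]
      exact ⟨⟨h.memL hT.1.2.1, hT.1.1, e2⟩, ⟨h.memZ hT.2.1.1.1, a2, a3, hT, e2, e3⟩,
        h.memL hT.2.1.2.1, hT.2.1.1, e3⟩
    · rintro ⟨a1, a2, a3, a4, a5, a6⟩ hw ⟨b1, b2, b3, b4, b5, b6⟩ hw' e
      have e1 := (mem_filter.1 (mem_coe.1 hw)).2.trans (mem_filter.1 (mem_coe.1 hw')).2.symm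
      simp only [tup, Prod.mk.injEq] at e1
      simp only [Prod.mk.injEq, Sigma.mk.injEq, heq_eq_eq] at e
      obtain ⟨rfl, -, -, rfl, rfl⟩ := e1
      obtain ⟨rfl, rfl, rfl⟩ := e
      rfl
  rw [card_product, card_sigma] at h6
  have h7 : ∑ z ∈ Hs, ((B z (ty d j0 η j')).card : ℝ) ≤
      10 * K / γ * (K ^ c * (m0 σ d N * η ^ σ)) := by
    refine (sum_le_sum fun z _ => h5 z).trans ?_
    rw [sum_const, nsmul_eq_mul]
    exact mul_le_mul_of_nonneg_right h4 (by positivity)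
  have h8 := mul_le_mul h3 h7 (sum_nonneg fun _ _ => Nat.cast_nonneg _) (by positivity)
  refine (Nat.cast_le.2 h6).trans ?_
  push_cast
  refine h8.trans ?_
  have h9 := mul_le_mul_of_nonneg_right (hc' K h.K2)
    (show 0 ≤ K * K ^ c * K ^ c / γ * (m0 σ d N * η ^ σ) ^ 2 by positivity)
  refine le_trans (le_of_eq ?_) (h9.trans_eq ?_) <;> ring

end Vale.Agent.P127.L1
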