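import Vale.Agent.P127.Lin1.Defs

/-! # P127 Lin1/Kit (helper91): the counting lemmas for arbitrary decidability instances. -/

namespace Vale.Agent.P127.L1

open Finset

variable {Ω β γ : Type} [hb : DecidableEq β]

theorem card_le_fib' (E : Finset Ω) (f : Ω → β) {M : ℝ}
    (h : ∀ ω ∈ E, ((E.filter fun ω' => f ω' = f ω).card : ℝ) ≤ M) :
    (E.card : ℝ) ≤ (E.image f).card * M := by
  obtain rfl : hb = fun a b => Classical.propDecidable (a = b) := Subsingleton.elim _ _
  exact card_le_fib E f h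

theorem image_le_mul' [hc : DecidableEq γ] (E : Finset Ω) (f : Ω → β) (g : Ω → γ) {M : ℝ}
    (h : ∀ ω ∈ E, (((E.filter fun ω' => f ω' = f ω).image g).card : ℝ) ≤ M) :
    ((E.image g).card : ℝ) ≤ (E.image f).card * M := by
  obtain rfl : hb = fun a b => Classical.propDecidable (a = b) := Subsingleton.elim _ _
  obtain rfl : hc = fun a b => Classical.propDecidable (a = b) := Subsingleton.elim _ _
  exact image_le_mul E f g h

theorem cs' (E : Finset Ω) (f : Ω → β) :
    (E.card : ℝ) ^ 2 ≤ (E.image f).card * (((E ×ˢ E).filter fun p => f p.1 = f p.2).card : ℝ) := by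
  obtain rfl : hb = fun a b => Classical.propDecidable (a = b) := Subsingleton.elim _ _
  exact cs E f

theorem pop1' (E : Finset Ω) (f : Ω → β) {R : ℝ} (hR : ((E.image f).card : ℝ) ≤ R) :
    ∃ E' ⊆ E, (E.card : ℝ) / 2 ≤ E'.card ∧ ∀ ω ∈ E',
      (E.card : ℝ) / (2 * R) ≤ ((E'.filter fun ω' => f ω' = f ω).card : ℝ) := by
  obtain rfl : hb = fun a b => Classical.propDecidable (a = b) := Subsingleton.elim _ _
  exact pop1 E f hR

theorem big_comb' (E : Finset Ω) (f : Ω → β) :
    ∃ F ⊆ E, (E.card : ℝ) ≤ (E.image f).card * F.card ∧ ∀ ω ∈ F, ∀ ω' ∈ F, f ω = f ω' := by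
  obtain rfl : hb = fun a b => Classical.propDecidable (a = b) := Subsingleton.elim _ _
  exact big_comb E f

theorem heavy' (U : Finset Ω) (f : Ω → β) {R M : ℝ} (hM : 0 < M)
    (hR : ((U.image f).card : ℝ) ≤ R)
    (hf : ∀ ω ∈ U, ((U.filter fun ω' => f ω' = f ω).card : ℝ) ≤ M) :
    ∃ B ⊆ U.image f, (U.card : ℝ) / (2 * M) ≤ B.card ∧
      ∀ b ∈ B, (U.card : ℝ) / (2 * R) ≤ ((U.filter fun ω => f ω = b).card : ℝ) := by
  obtain rfl : hb = fun a b => Classical.propDecidable (a = b) := Subsingleton.elim _ _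
  exact heavy U f hM hR hf

end Vale.Agent.P127.L1
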