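import Vale.Agent.P127.Lin1.Defs

/-! # P127 Lin1/Pair (TASK; helper names start with pair_)
Closing wedges to triangles.  key (i, i', z0, z1) = (i, z1, cell (η ^ 2) (pos (i', z1))); cs on WG with key. A pair (w, w') with the same key is sent injectively to
(w.1, w.2.1, w'.2.1, w.2.2.1, w'.2.2.1, w.2.2.2) ∈ QQ (mem_WG, mem_QQ, cell_close; card_le_card_of_injOn).
Number of keys: image_le_mul with f w = (w.1, w.2.2.2), at most (K nL) (K / η ^ 2) values (cardL, cardZ, card_product). For fixed (i, z1) use image_le_mul again with f w = cz (η ^ 2) τ, τ = (z1 - z0) (e i j0 - e i' j0), |τ| ≤ 2 η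
(cz_close, abs_sub_e), at most 4 / η + 2 ≤ 5 / η values (cover_z). For a fixed value with representative τ0 all end points pos (i', z1) are within η ^ 2 + 6 K η ^ 2 + 2 η ^ 2 ≤ 8 K η ^ 2 of pos (i, z1) - τ0 • gv z1
(Hy.endp, Hy.dirW with the point (i', z1), norm_gv, cz_close), so cover gives at most (16 K + 2) ^ D ≤ (17 K) ^ D cells (the first two components of the key are constant: card_image_le after image_image, or card_le_card_of_injOn). -/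

namespace Vale.Agent.P127.L1

open Finset
open scoped Classical

theorem pair_cs {Ω β β' γ : Type} {E : Finset Ω} {f : Ω → β'} (g : Ω → β) {R M : ℝ} (hM : 0 ≤ M)
    (hR : CovA2 E f R)
    (h : ∀ ω ∈ E, ∃ T : Finset β, (T.card : ℝ) ≤ M ∧ ∀ ω' ∈ E, f ω' = f ω → g ω' ∈ T)
    (Q : Finset γ) (φ : Ω → Ω → γ) (h1 : ∀ ω ∈ E, ∀ ω' ∈ E, g ω = g ω' → φ ω ω' ∈ Q)
    (h2 : ∀ a b a' b', g a = g b → g a' = g b' → φ a b = φ a' b' → a = a' ∧ b = b') :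
    (E.card : ℝ) ^ 2 ≤ R * M * Q.card := by
  have k1 := img_A2 g hM hR h
  refine (cs E g).trans (mul_le_mul k1 (Nat.cast_le.2 ?_) (Nat.cast_nonneg _)
    ((Nat.cast_nonneg _).trans k1))
  refine card_le_card_of_injOn (fun p => φ p.1 p.2) (fun p hp => ?_) fun p hp q hq e => ?_
  · simp only [coe_filter, mem_product, Set.mem_ofPred_eq] at hp
    exact h1 _ hp.1.1 _ hp.1.2 hp.2
  · simp only [coe_filter, mem_product, Set.mem_ofPred_eq] at hp hq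
    obtain ⟨e1, e2⟩ := h2 _ _ _ _ hp.2 hq.2 e
    exact Prod.ext e1 e2

theorem pair_near {D : ℕ} {σ : ℝ} {m : ℕ} {d : Dat D} {j0 : Fin D} {N H K η γ : ℝ}
    (h : Hy σ m d j0 N H K η) {i i' : ℕ} {z0 z1 τ : ℝ} (hW : Wg d j0 N η γ i i' z0 z1)
    (hτ : |(z1 - z0) * (d.c.e i j0 - d.c.e i' j0) - τ| ≤ η ^ 2) :
    ‖d.c.pos (i', z1) - (d.c.pos (i, z1) - τ • gv d j0 z1)‖ ≤ 8 * K * η ^ 2 := by
  have hz := cz_close h.η0 hW.2.2.1
  have a1 := h.endp hW.1 z1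
  have a2 := h.dirW hW.1 hW.2.1 hz
  have a3 := h.norm_gv (j0 := j0) z1
  have e : d.c.pos (i', z1) - (d.c.pos (i, z1) - τ • gv d j0 z1) =
      (d.c.pos (i', z1) - (d.c.pos (i, z1) - (z1 - z0) • (d.c.e i - d.c.e i'))) -
      (z1 - z0) • (d.c.e i - d.c.e i' - (d.c.e i j0 - d.c.e i' j0) • gv d j0 z1) -
      ((z1 - z0) * (d.c.e i j0 - d.c.e i' j0) - τ) • gv d j0 z1 := by
    module
  rw [e]
  refine ((norm_sub_le _ _).trans (add_le_add (norm_sub_le _ _) le_rfl)).trans ?_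
  rw [norm_smul, norm_smul, Real.norm_eq_abs, Real.norm_eq_abs, abs_sub_comm z1 z0]
  have b1 := mul_le_mul hz a2 (norm_nonneg _) h.η0.le
  have b2 := mul_le_mul hτ a3 (norm_nonneg _) (sq_nonneg η)
  nlinarith [h.K2, sq_nonneg η]

theorem pair_lb (D : ℕ) : ∃ c : ℕ, ∀ (σ : ℝ) (m : ℕ) (d : Dat D) (j0 : Fin D) (N H K η γ : ℝ),
    Hy σ m d j0 N H K η →
    ((WG d j0 N η γ).card : ℝ) ^ 2 ≤ K ^ c * d.c.nL / η ^ 3 * (QQ d j0 N η γ).card := by
  obtain ⟨c, hc⟩ := pow_ge (8 * 32 ^ D)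
  refine ⟨c + D + 2, fun σ m d j0 N H K η γ h => ?_⟩
  have hη := h.η0
  have hK := h.K0
  have hη2 : 0 < η ^ 2 := by positivity
  have mem : ∀ w ∈ WG d j0 N η γ, Wg d j0 N η γ w.1 w.2.1 w.2.2.1 w.2.2.2 := fun w hw =>
    h.mem_WG.1 hw
  have c1 : CovA2 (WG d j0 N η γ) (fun w => w.1) (K * d.c.nL) :=
    ⟨_, h.cardL, fun w hw => h.memL (mem w hw).1.1⟩
  have c2 : CovA2 (WG d j0 N η γ) (fun w => w.2.2.2) (K / η ^ 2) :=
    ⟨_, h.cardZ, fun w hw => h.memZ (mem w hw).2.1⟩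
  have c3 := cov_z_A2 (WG d j0 N η γ)
    (fun w => (w.2.2.2 - w.2.2.1) * (d.c.e w.1 j0 - d.c.e w.2.1 j0)) 0 (A := 2 / η) hη2
    (by rw [le_div_iff₀ hη]; linarith [h.η2]) fun w hw => by
      have a1 := cz_close hη (mem w hw).2.2.1
      have a2 := h.abs_sub_e (mem w hw).1.1 (mem w hw).1.2.1
      rw [sub_zero, abs_mul, abs_sub_comm]
      refine (mul_le_mul a1 a2 (abs_nonneg _) hη.le).trans_eq ?_
      field_simp
  have key := pair_cs (fun w : ℕ × ℕ × ℝ × ℝ =>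
      (w.1, w.2.2.2, cell (η ^ 2) (d.c.pos (w.2.1, w.2.2.2)))) (M := (4 * (8 * K)) ^ D)
    (by positivity) ((c1.pair c2).pair c3) (fun w hw => ?_) (QQ d j0 N η γ)
    (fun w w' => (w.1, w.2.1, w'.2.1, w.2.2.1, w'.2.2.1, w.2.2.2)) (fun w hw w' hw' e => ?_) ?_
  · refine key.trans (mul_le_mul_of_nonneg_right ?_ (Nat.cast_nonneg _))
    have e : K * d.c.nL * (K / η ^ 2) * (4 * (2 / η)) * (4 * (8 * K)) ^ D =
        8 * 32 ^ D * (K ^ (D + 2) * d.c.nL / η ^ 3) := by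
      rw [show 4 * (8 * K) = 32 * K by ring, mul_pow]
      field_simp
      ring
    have := h.nL0
    rw [e, add_assoc, pow_add K c, mul_assoc (K ^ c), mul_div_assoc (K ^ c)]
    exact mul_le_mul_of_nonneg_right (hc K h.K2) (by positivity)
  · obtain ⟨T, hT, hm⟩ := cov_cell_A2 ((WG d j0 N η γ).filter fun w' => w'.1 = w.1 ∧
        w'.2.2.2 = w.2.2.2 ∧ |(w'.2.2.2 - w'.2.2.1) * (d.c.e w'.1 j0 - d.c.e w'.2.1 j0) -
          (w.2.2.2 - w.2.2.1) * (d.c.e w.1 j0 - d.c.e w.2.1 j0)| ≤ η ^ 2)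
      (fun w' => d.c.pos (w'.2.1, w'.2.2.2))
      (d.c.pos (w.1, w.2.2.2) - ((w.2.2.2 - w.2.2.1) * (d.c.e w.1 j0 - d.c.e w.2.1 j0)) •
        gv d j0 w.2.2.2) (A := 8 * K) hη2 (by linarith [h.K2]) fun w' hw' => by
      obtain ⟨a1, a2, a3, a4⟩ := mem_filter.1 hw'
      have := pair_near h (mem w' a1) a4
      rwa [show d.c.pos (w'.1, w'.2.2.2) = d.c.pos (w.1, w.2.2.2) by rw [a2, a3],
        show gv d j0 w'.2.2.2 = gv d j0 w.2.2.2 by rw [a3]] at this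
    rw [Fintype.card_fin] at hT
    refine ⟨T.map ⟨fun b => (w.1, w.2.2.2, b), fun b b' e => by simpa using e⟩, by rwa [card_map],
      fun w' hw' e => ?_⟩
    simp only [Prod.mk.injEq] at e
    refine mem_map.2 ⟨_, hm w' (mem_filter.2 ⟨hw', e.1.1, e.1.2, cz_close hη2 e.2⟩), ?_⟩
    exact Prod.ext e.1.1.symm (Prod.ext e.1.2.symm rfl)
  · simp only [Prod.mk.injEq] at e
    have a1 := mem w' hw'
    have a2 := cell_close hη2 e.2.2
    rw [← e.1, ← e.2.1] at a1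
    rw [← e.2.1] at a2
    exact h.mem_QQ.2 ⟨mem w hw, a1, a2⟩
  · rintro ⟨a1, a2, a3, a4⟩ ⟨b1, b2, b3, b4⟩ ⟨a1', a2', a3', a4'⟩ ⟨b1', b2', b3', b4'⟩ e1 e2 e3
    simp only [Prod.mk.injEq] at e1 e2 e3 ⊢
    obtain ⟨rfl, rfl, -⟩ := e1
    obtain ⟨rfl, rfl, -⟩ := e2
    obtain ⟨rfl, rfl, rfl, rfl, rfl, rfl⟩ := e3
    simp

end Vale.Agent.P127.L1
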