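import Vale.Agent.P127.Lin1.Defs

/-! # P127 Lin1/Rel (TASK; helper names start with rel_)
The additive relation of a triangle.  Write a = e i j0 - e i' j0, a' = e i j0 - e i'' j0, a - a' = e i'' j0 - e i' j0; A = e i j0 - η ty i', A' = e i j0 - η ty i'', |A - a| ≤ η, |A' - a'| ≤ η (ty_close), |A| ≥ γ / 2, x = (A' - A) / A, 1 + x = A' / A.
Scalar lemma: if F0, F1, F0' satisfy |a F0 + (a' - a) F1 - a' F0'| ≤ ε and |F0 - Fc|, |F1 - Fc|, |F0' - Fc| ≤ ρ then |A (F0 - Fc) + (A' - A) (F1 - Fc) - A' (F0' - Fc)| ≤ ε + 4 η ρ; divide by |A| η ^ 2.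
Coordinate 0 (Fin.cases, pi_norm_le_iff_of_nonneg): F = heights, ε = 3 η ^ 2 (Hy.close), ρ = η (cz_close).  Coordinate l + 1: F = P z l j0. For l = j0 all entries vanish (reg.gr, mem). For l ≠ j0, gv z l = - P z l j0 and the three
inequalities Hy.dirM (twice) and Hy.dir at z1 in the coordinate l add up to ε = 6 K η ^ 2; ρ = 2 K η (Hy.P_lip, norm_le_pi_norm twice). -/

namespace Vale.Agent.P127.L1

open Finset
open scoped Classical

theorem rel_sc {a a' A A' F0 F1 F2 Fc ε ρ η γ x K : ℝ} (hη : 0 < η) (h1 : 2 * η ≤ γ)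
    (hg : γ ≤ |a|) (hA : |A - a| ≤ η) (hA' : |A' - a'| ≤ η) (hx : x = (A' - A) / A)
    (he : |a * F0 + (a' - a) * F1 - a' * F2| ≤ ε) (h0 : |F0 - Fc| ≤ ρ) (h2 : |F1 - Fc| ≤ ρ)
    (h3 : |F2 - Fc| ≤ ρ) (hb : ε + 4 * η * ρ ≤ 14 * K * η ^ 2) :
    |(F0 - Fc) / η ^ 2 + x * ((F1 - Fc) / η ^ 2) - (1 + x) * ((F2 - Fc) / η ^ 2)| ≤
      28 * K / γ := by
  have hγ : 0 < γ := by linarith
  have hA2 : γ / 2 ≤ |A| := by
    have := abs_sub_abs_le_abs_sub a A
    rw [abs_sub_comm] at this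
    linarith
  have hA0 : 0 < |A| := by linarith
  have hA1 : A ≠ 0 := abs_pos.1 hA0
  have g1 : |F0 - F1| ≤ 2 * ρ := by
    have := abs_sub_le F0 Fc F1
    rw [abs_sub_comm Fc] at this
    linarith
  have g2 : |F1 - F2| ≤ 2 * ρ := by
    have := abs_sub_le F1 Fc F2
    rw [abs_sub_comm Fc] at this
    linarith
  have g3 : |(A - a) * (F0 - F1)| ≤ η * (2 * ρ) := by
    rw [abs_mul]
    exact mul_le_mul hA g1 (abs_nonneg _) hη.le
  have g4 : |(A' - a') * (F1 - F2)| ≤ η * (2 * ρ) := by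
    rw [abs_mul]
    exact mul_le_mul hA' g2 (abs_nonneg _) hη.le
  have g5 := (abs_add_three (a * F0 + (a' - a) * F1 - a' * F2) ((A - a) * (F0 - F1))
    ((A' - a') * (F1 - F2))).trans (add_le_add (add_le_add he g3) g4)
  have g6 : (F0 - Fc) / η ^ 2 + x * ((F1 - Fc) / η ^ 2) - (1 + x) * ((F2 - Fc) / η ^ 2) =
      (a * F0 + (a' - a) * F1 - a' * F2 + (A - a) * (F0 - F1) + (A' - a') * (F1 - F2)) /
        (A * η ^ 2) := by
    rw [hx]
    field_simp
    ring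
  have hη2 : 0 < η ^ 2 := by positivity
  have g7 : 0 ≤ 14 * K * η ^ 2 := ((abs_nonneg _).trans g5).trans (by linarith)
  rw [g6, abs_div, abs_mul, abs_of_pos hη2]
  calc _ ≤ 14 * K * η ^ 2 / (γ / 2 * η ^ 2) :=
        div_le_div₀ g7 (by linarith) (by positivity)
          (mul_le_mul_of_nonneg_right hA2 hη2.le)
    _ = 28 * K / γ := by
        field_simp
        ring

theorem rel {D m : ℕ} {σ : ℝ} {d : Dat D} {j0 : Fin D} {N H K η γ : ℝ} (h : Hy σ m d j0 N H K η)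
    (h1 : 2 * η ≤ γ) {i i' i'' ic : ℕ} {z0 z0' z1 zc : ℝ} (hT : Tri d j0 N η γ i i' i'' z0 z0' z1)
    (hc : (ic, zc) ∈ d.c.E) (hz : cz η zc = cz η z0) {x : ℝ}
    (hx : x = (η * ty d j0 η i' - η * ty d j0 η i'') / (d.c.e i j0 - η * ty d j0 η i')) :
    ‖gph d η zc (fun l => (l, j0)) z0 + x • gph d η zc (fun l => (l, j0)) z1 -
      (1 + x) • gph d η zc (fun l => (l, j0)) z0'‖ ≤ 28 * K / γ := by
  have hη := h.η0
  have hK := h.K2
  have hγ : 0 < γ := by linarith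
  obtain ⟨⟨hM, h1', hz1, hg⟩, ⟨hM', h1'', hz1', -⟩, hp⟩ := id hT
  have a0 : |z0 - zc| ≤ η := cz_close hη hz.symm
  have a1 : |z1 - zc| ≤ η := cz_close hη (hz.trans hz1).symm
  have a2 : |z0' - zc| ≤ η := cz_close hη (hz1'.trans (hz.trans hz1).symm)
  have hA : |(d.c.e i j0 - η * ty d j0 η i') - (d.c.e i j0 - d.c.e i' j0)| ≤ η := by
    rw [sub_sub_sub_cancel_left]
    exact h.ty_close i'
  have hA' : |(d.c.e i j0 - η * ty d j0 η i'') - (d.c.e i j0 - d.c.e i'' j0)| ≤ η := by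
    rw [sub_sub_sub_cancel_left]
    exact h.ty_close i''
  have hx' : x = ((d.c.e i j0 - η * ty d j0 η i'') - (d.c.e i j0 - η * ty d j0 η i')) /
      (d.c.e i j0 - η * ty d j0 η i') := by
    rw [hx, sub_sub_sub_cancel_left]
  have hη2 : 0 < η ^ 2 := by positivity
  refine (pi_norm_le_iff_of_nonneg (by positivity)).2 fun l => ?_
  rw [Real.norm_eq_abs]
  refine Fin.cases ?_ (fun l => ?_) l
  · simp only [gph, Pi.sub_apply, Pi.add_apply, Pi.smul_apply, smul_eq_mul, Fin.cons_zero]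
    refine rel_sc (ε := 3 * η ^ 2) hη h1 hg hA hA' hx' ?_ a0 a1 a2 (by nlinarith)
    have := h.close hT
    rw [← abs_neg] at this
    refine le_trans (le_of_eq ?_) this
    congr 1
    ring
  · simp only [gph, Pi.sub_apply, Pi.add_apply, Pi.smul_apply, smul_eq_mul, Fin.cons_succ]
    have hP : ∀ {j : ℕ} {z : ℝ}, (j, z) ∈ d.c.E → |z - zc| ≤ η →
        |d.P z l j0 - d.P zc l j0| ≤ 2 * K * η := fun {j z} hj hzz =>
      ((norm_le_pi_norm ((d.P z - d.P zc) l) j0).trans (norm_le_pi_norm _ l)).trans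
        (h.P_lip hj hc hzz)
    refine rel_sc (ε := 6 * K * η ^ 2) hη h1 hg hA hA' hx' ?_ (hP hM.1 a0) (hP h1' a1)
      (hP hM'.1 a2) (le_of_eq (by ring))
    by_cases hl : l = j0
    · have h0 : ∀ z, d.P z l j0 = 0 := fun z =>
        (h.reg.gr z).1 l (fun k => (h.mem l).1 k hl) j0
      simp only [h0, mul_zero, add_zero, sub_zero, abs_zero]
      positivity
    · have b1 := abs_le.1 ((norm_le_pi_norm _ l).trans (h.dirM hM))
      have b2 := abs_le.1 ((norm_le_pi_norm _ l).trans (h.dirM hM'))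
      have b3 := abs_le.1 ((norm_le_pi_norm _ l).trans (h.dir h1' h1'' hp))
      simp only [Pi.sub_apply, Pi.smul_apply, smul_eq_mul, gv, if_neg hl] at b1 b2 b3
      exact abs_le.2 ⟨by linarith [b1.1, b2.2, b3.1], by linarith [b1.2, b2.1, b3.2]⟩

end Vale.Agent.P127.L1
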