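import Vale.Agent.P127.Lin1.Defs

/-! # P127 Lin1/Types (TASK; helper names start with types_)
Non concentration of the types.  If the set is empty there is nothing to prove. Otherwise fix one (i1, zc) in E with Mee d N i i1 zc, cz η zc = n. Every (i', z) in E with Mee d N i i' z, cz η z = n, |η ty i' - y| ≤ 4 r has
|z - zc| ≤ η (cz_close), ‖pos (i', z) - pos (i, zc)‖ ≤ 1 / N + η ≤ 2 η (pos_shift, norm_e), and ‖e i' - p‖ ≤ 6 K η + 2 (4 r + η) ≤ 11 K r for p = e i - (e i j0 - y) • gv zc (Hy.dirW, ty_close, norm_gv).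
r2A with A = 11 K, α = r, α' = η; the type is the j0 coordinate of cell η (e i') (by rfl), so the set lies in the image of the set of cells under evaluation at j0 (card_image_le).
types_all: r = 1, y = 0, |η b| ≤ 1 + η (ty_close, abs_e); (1 / η) ^ σ = 1 / η ^ σ. -/

namespace Vale.Agent.P127.L1

open Finset
open scoped Classical

theorem types_near {D : ℕ} {σ : ℝ} {m : ℕ} {d : Dat D} {j0 : Fin D} {N H K η : ℝ}
    (h : Hy σ m d j0 N H K η) {i i1 i' : ℕ} {n : ℤ} {y r z zc : ℝ} (hr : η ≤ r)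
    (h1 : Mee d N i i1 zc) (hc : cz η zc = n) (h2 : Mee d N i i' z) (hz : cz η z = n)
    (hb : |η * ty d j0 η i' - y| ≤ 4 * r) :
    |z - zc| ≤ 11 * K * η ∧ ‖d.c.pos (i', z) - d.c.pos (i, zc)‖ ≤ 11 * K * η ∧
      ‖d.c.e i' - (d.c.e i - (d.c.e i j0 - y) • gv d j0 zc)‖ ≤ 11 * K * r := by
  have hη := h.η0
  have hK := h.K2
  have a1 : |z - zc| ≤ η := cz_close hη (hz.trans hc.symm)
  have hKη : 2 * η ≤ K * η := mul_le_mul_of_nonneg_right hK hη.le
  refine ⟨by linarith, ?_, ?_⟩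
  · have e1 : d.c.pos (i', z) - d.c.pos (i, zc) =
        -(d.c.pos (i, z) - d.c.pos (i', z)) + (z - zc) • d.c.e i := by
      rw [pos_shift d.c i zc z]
      abel
    have b1 : ‖(z - zc) • d.c.e i‖ ≤ η := by
      rw [norm_smul, Real.norm_eq_abs]
      have := mul_le_mul a1 (h.norm_e h2.1) (norm_nonneg _) hη.le
      linarith
    have b2 := h2.2.2.trans (h.Nη.trans h.sq_le)
    rw [e1]
    refine (norm_add_le _ _).trans ?_
    rw [norm_neg]
    linarith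
  · have b1 := h.dirW h2 h1.1 a1
    have e1 : d.c.e i' - (d.c.e i - (d.c.e i j0 - y) • gv d j0 zc) =
        -(d.c.e i - d.c.e i' - (d.c.e i j0 - d.c.e i' j0) • gv d j0 zc) +
          (d.c.e i' j0 - y) • gv d j0 zc := by
      simp only [sub_smul]
      abel
    have b2 : |d.c.e i' j0 - y| ≤ 5 * r := by
      have c1 := abs_le.1 (h.ty_close i')
      have c2 := abs_le.1 hb
      exact abs_le.2 ⟨by linarith [c1.1, c2.1], by linarith [c1.2, c2.2]⟩
    have hr0 : 0 ≤ r := hη.le.trans hr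
    have b3 : ‖(d.c.e i' j0 - y) • gv d j0 zc‖ ≤ 5 * r * 2 := by
      rw [norm_smul, Real.norm_eq_abs]
      exact mul_le_mul b2 (h.norm_gv zc) (norm_nonneg _) (by linarith)
    have b4 : K * η ≤ K * r := mul_le_mul_of_nonneg_left hr h.K0.le
    have b5 : 2 * r ≤ K * r := mul_le_mul_of_nonneg_right hK hr0
    rw [e1]
    refine (norm_add_le _ _).trans ?_
    rw [norm_neg]
    linarith

theorem types_loc (D : ℕ) : ∃ c : ℕ, ∀ (σ : ℝ) (m : ℕ) (d : Dat D) (j0 : Fin D) (N H K η : ℝ),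
    Hy σ m d j0 N H K η → ∀ (i : ℕ) (n : ℤ) (y r : ℝ), η ≤ r → r ≤ 1 →
    (((TY d j0 N η i n).filter fun b : ℤ => |η * b - y| ≤ 4 * r).card : ℝ) ≤
      K ^ c * (r ^ σ / η ^ σ) := by
  obtain ⟨C, hC, hR⟩ := r2A D
  obtain ⟨c0, hc0⟩ := pow_ge (C * 11 ^ (2 * D + 1))
  refine ⟨c0 + (2 * D + 1) + 1, ?_⟩
  intro σ m d j0 N H K η h i n y r hr hr1
  have hη := h.η0
  have hK := h.K0
  have hr0 : 0 < r := hη.trans_le hr
  rcases ((TY d j0 N η i n).filter fun b : ℤ => |η * b - y| ≤ 4 * r).eq_empty_or_nonempty with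
    he | ⟨b0, hb0⟩
  · rw [he, card_empty, Nat.cast_zero]
    positivity
  obtain ⟨⟨i1, zc⟩, hω0, -⟩ := mem_image.1 (mem_filter.1 hb0).1
  obtain ⟨-, h1, hc⟩ := mem_filter.1 hω0
  have hA : 1 ≤ 11 * K := by linarith [h.K2]
  have key := hR h.reg h.N1 (11 * K) zc r η (d.c.e i - (d.c.e i j0 - y) • gv d j0 zc)
    (d.c.pos (i, zc)) hA (h.Nη.trans h.sq_le) hr hr1
  set T := (d.c.E.filter fun ω => |ω.2 - zc| ≤ 11 * K * η ∧
      ‖d.c.pos ω - d.c.pos (i, zc)‖ ≤ 11 * K * η ∧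
      ‖d.c.e ω.1 - (d.c.e i - (d.c.e i j0 - y) • gv d j0 zc)‖ ≤ 11 * K * r).image
      fun ω => cell η (d.c.e ω.1) with hT
  have hsub : ((TY d j0 N η i n).filter fun b : ℤ => |η * b - y| ≤ 4 * r) ⊆
      T.image fun v => v j0 := by
    intro b hb
    obtain ⟨hb1, hb2⟩ := mem_filter.1 hb
    obtain ⟨⟨i', z⟩, hω, rfl⟩ := mem_image.1 hb1
    obtain ⟨hE, h2, hz⟩ := mem_filter.1 hω
    refine mem_image.2 ⟨cell η (d.c.e i'), mem_image.2 ⟨(i', z), mem_filter.2 ⟨hE, ?_⟩, rfl⟩, rfl⟩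
    exact types_near h hr h1 hc h2 hz hb2
  have h3 : (((TY d j0 N η i n).filter fun b : ℤ => |η * b - y| ≤ 4 * r).card : ℝ) ≤ T.card :=
    Nat.cast_le.2 ((card_le_card hsub).trans card_image_le)
  refine h3.trans (key.trans ?_)
  rw [Real.div_rpow hr0.le hη.le]
  refine mul_le_mul_of_nonneg_right ?_ (by positivity)
  have h4 := hc0 K h.K2
  calc C * (11 * K) ^ (2 * D + 1) * K = C * 11 ^ (2 * D + 1) * (K ^ (2 * D + 1) * K) := by
        rw [mul_pow]; ring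
    _ ≤ K ^ c0 * (K ^ (2 * D + 1) * K) := mul_le_mul_of_nonneg_right h4 (by positivity)
    _ = K ^ (c0 + (2 * D + 1) + 1) := by ring

theorem types_all (D : ℕ) : ∃ c : ℕ, ∀ (σ : ℝ) (m : ℕ) (d : Dat D) (j0 : Fin D) (N H K η : ℝ),
    Hy σ m d j0 N H K η → ∀ (i : ℕ) (n : ℤ), ((TY d j0 N η i n).card : ℝ) ≤ K ^ c / η ^ σ := by
  obtain ⟨c, hc⟩ := types_loc D
  refine ⟨c, ?_⟩
  intro σ m d j0 N H K η h i n
  have h1 := hc σ m d j0 N H K η h i n 0 1 (by linarith [h.η2]) le_rfl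
  rw [filter_true_of_mem, Real.one_rpow, mul_one_div] at h1
  · exact h1
  · intro b hb
    obtain ⟨⟨i', z⟩, hω, rfl⟩ := mem_image.1 hb
    have c1 := abs_le.1 (h.ty_close i')
    have c2 := abs_le.1 (h.abs_e (mem_filter.1 hω).1)
    have c3 := h.η2
    exact abs_le.2 ⟨by linarith [c1.2, c2.1], by linarith [c1.1, c2.2]⟩

end Vale.Agent.P127.L1
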