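import Vale.Agent.P127.Lin1.Kit
import Vale.Agent.P127.Lin1.Types
import Vale.Agent.P127.Lin1.Rel

/-! # P127 Lin1/Sum (helper91): a rich window has many additive coincidences. -/

namespace Vale.Agent.P127.L1

open Finset
open scoped Classical

variable {D m : ℕ} {σ : ℝ} {d : Dat D} {j0 : Fin D} {N H K η γ : ℝ}

theorem sum_ty (h : Hy σ m d j0 N H K η) {n : ℤ} {u : ℕ × ℤ × ℤ × ℝ × ℝ} (hu : u ∈ UU d j0 N η γ)
    (hn : cz η u.2.2.2.1 = n) : u.1 ∈ d.c.L ∧ u.2.1 ∈ TY d j0 N η u.1 n ∧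
      u.2.2.1 ∈ TY d j0 N η u.1 n ∧ u.2.2.2.1 ∈ (d.c.E.image Prod.snd).filter (cz η · = n) ∧
      u.2.2.2.2 ∈ (d.c.E.image Prod.snd).filter (cz η · = n) := by
  obtain ⟨i, b, b', z0, z1⟩ := u
  obtain ⟨i', i'', z0', hT, rfl, rfl⟩ := h.mem_UU.1 hu
  have e1 : cz η z1 = n := hT.1.2.2.1.symm.trans hn
  exact ⟨h.memL hT.1.1.1, mem_TY hT.1.1 hn, mem_TY hT.2.1.1 (hT.2.1.2.2.1.trans e1),
    mem_filter.2 ⟨mem_image_of_mem _ hT.1.1.1, hn⟩, mem_filter.2 ⟨mem_image_of_mem _ hT.1.2.1, e1⟩⟩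

theorem sum_T (h : Hy σ m d j0 N H K η) (n : ℤ) :
    (((d.c.E.image Prod.snd).filter (cz η · = n)).card : ℝ) ≤ K / η := by
  refine (Nat.cast_le.2 (card_le_card (filter_subset_filter _ fun z hz => ?_))).trans (h.win n)
  obtain ⟨ω, hω, rfl⟩ := mem_image.1 hz
  exact h.memZ hω

theorem sum_keys (h : Hy σ m d j0 N H K η) {n : ℤ} {R : ℝ}
    (hR : ∀ i, ((TY d j0 N η i n).card : ℝ) ≤ R) :
    ((((UU d j0 N η γ).filter fun u => cz η u.2.2.2.1 = n).image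
      fun u => (u.1, u.2.1)).card : ℝ) ≤ K * d.c.nL * R := by
  refine (image_le_mul' _ (fun u => u.1) _ (M := R) fun u hu => ?_).trans
    (mul_le_mul_of_nonneg_right ((Nat.cast_le.2 (card_le_card fun i hi => ?_)).trans h.cardL)
      ((Nat.cast_nonneg _).trans (hR 0)))
  · refine (Nat.cast_le.2 ((card_le_card (t := (TY d j0 N η u.1 n).image fun b => (u.1, b))
      fun p hp => ?_).trans card_image_le)).trans (hR u.1)
    obtain ⟨v, hv, rfl⟩ := mem_image.1 hp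
    obtain ⟨h1, h2⟩ := mem_filter.1 hv
    obtain ⟨h3, h4⟩ := mem_filter.1 h1
    exact mem_image.2 ⟨v.2.1, h2 ▸ (sum_ty h h3 h4).2.1, by rw [h2]⟩
  · obtain ⟨v, hv, rfl⟩ := mem_image.1 hi
    exact (sum_ty h (mem_filter.1 hv).1 (mem_filter.1 hv).2).1

theorem sum_inj {F : Finset (ℕ × ℤ × ℤ × ℝ × ℝ)} {i : ℕ} {b b' : ℤ}
    (hF : ∀ u ∈ F, u.1 = i ∧ u.2.1 = b) :
    Set.InjOn (fun u : ℕ × ℤ × ℤ × ℝ × ℝ => u.2.2.2) (F.filter fun u => u.2.2.1 = b') := by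
  intro u hu v hv e
  obtain ⟨h1, h2⟩ := mem_filter.1 (mem_coe.1 hu)
  obtain ⟨h3, h4⟩ := mem_filter.1 (mem_coe.1 hv)
  exact Prod.ext ((hF u h1).1.trans (hF v h3).1.symm)
    (Prod.ext ((hF u h1).2.trans (hF v h3).2.symm) (Prod.ext (h2.trans h4.symm) e))

theorem sum_abs (h : Hy σ m d j0 N H K η) {i : ℕ} {n b : ℤ} (hb : b ∈ TY d j0 N η i n) :
    |η * b| ≤ 3 / 2 := by
  obtain ⟨ω, hω, rfl⟩ := mem_image.1 hb
  have h1 := abs_le.1 (h.ty_close ω.1)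
  have h2 := abs_le.1 (h.abs_e (mem_filter.1 hω).1)
  exact abs_le.2 ⟨by linarith [h.η2], by linarith [h.η2]⟩

/-- the data of a rich window -/
theorem sum_core (h : Hy σ m d j0 N H K η) (h0 : 0 < σ) (h1 : 2 * η ≤ γ) {n : ℤ}
    {F : Finset (ℕ × ℤ × ℤ × ℝ × ℝ)} (hF : ∀ u ∈ F, u ∈ UU d j0 N η γ ∧ cz η u.2.2.2.1 = n)
    {i : ℕ} {b : ℤ} (hk : ∀ u ∈ F, u.1 = i ∧ u.2.1 = b) {K1 K' : ℝ} (k1 : 1 ≤ K1)
    (hc : 1 / (η ^ 2 * η ^ σ * K1) ≤ F.card)
    (ta : ((TY d j0 N η i n).card : ℝ) ≤ K1 / η ^ σ)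
    (tl : ∀ y r : ℝ, η ≤ r → r ≤ 1 → (((TY d j0 N η i n).filter
      fun b : ℤ => |η * b - y| ≤ 4 * r).card : ℝ) ≤ K1 * (r ^ σ / η ^ σ))
    (k2 : 2 * K ^ 2 * K1 ^ 2 ≤ K') (k3 : 28 * K / γ ≤ K') :
    ∃ z0 ∈ d.c.E.image Prod.snd, cz η z0 = n ∧ SumD σ (1 / η) K'
      ((d.c.E.image Prod.snd).filter fun z => cz η z = n) (gph d η z0 fun l => (l, j0)) := by
  have η0 := h.η0
  have K2 := h.K2
  have s0 : 0 < η ^ σ := Real.rpow_pos_of_pos η0 σ
  have γ0 : 0 < γ := by linarith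
  have q1 : K1 ≤ K1 ^ 2 := le_self_pow₀ k1 two_ne_zero
  have q2 : 4 ≤ K ^ 2 := by nlinarith
  have q3 : 8 * K1 ^ 2 ≤ K' := by nlinarith
  have q4 : 2 * K ^ 2 * K1 ≤ K' := by nlinarith
  have q5 : K ≤ K' := by nlinarith
  obtain ⟨⟨i1, b1, b2, zc, z2⟩, hu0⟩ : F.Nonempty :=
    card_pos.1 (Nat.cast_pos.1 (lt_of_lt_of_le (by positivity) hc))
  obtain ⟨rfl, rfl⟩ : i1 = i ∧ b1 = b := hk _ hu0
  have hb := (sum_ty h (hF _ hu0).1 (hF _ hu0).2).2.1
  obtain ⟨j1, j2, z3, hT0, e1, -⟩ := h.mem_UU.1 (hF _ hu0).1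
  have hty : ∀ u ∈ F, u.2.2.1 ∈ TY d j0 N η i1 n := fun u hu =>
    (hk u hu).1 ▸ (sum_ty h (hF u hu).1 (hF u hu).2).2.2.1
  have hsub : F.image (fun u => u.2.2.1) ⊆ TY d j0 N η i1 n := fun p hp => by
    obtain ⟨u, hu, rfl⟩ := mem_image.1 hp
    exact hty u hu
  have hG : ∀ u ∈ F, u.2.2.2 ∈ (d.c.E.image Prod.snd).filter (cz η · = n) ×ˢ
      (d.c.E.image Prod.snd).filter (cz η · = n) := fun u hu =>
    mem_product.2 (sum_ty h (hF u hu).1 (hF u hu).2).2.2.2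
  obtain ⟨B, B1, B2, B3⟩ := heavy' F (fun u => u.2.2.1) (R := K1 / η ^ σ) (M := K / η * (K / η))
    (by positivity) ((Nat.cast_le.2 (card_le_card hsub)).trans ta) fun u _ => by
      refine (Nat.cast_le.2 (card_le_card_of_injOn _ (fun v hv => hG v (mem_filter.1 hv).1)
        (sum_inj hk))).trans ?_
      rw [card_product, Nat.cast_mul]
      exact mul_le_mul (sum_T h n) (sum_T h n) (Nat.cast_nonneg _) (by positivity)
  obtain ⟨A, hA⟩ : ∃ A, A = d.c.e i1 j0 - η * b1 := ⟨_, rfl⟩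
  have A1 : γ / 2 ≤ |A| := by
    have a1 := hT0.1.2.2.2
    have a2 := h.ty_close j1
    have a3 := abs_sub A (d.c.e j1 j0 - η * ty d j0 η j1)
    rw [e1, hA, sub_sub_sub_cancel_right, ← hA] at a3
    rw [e1] at a2
    linarith
  have A2 : |A| ≤ 3 := by
    rw [hA]
    linarith [abs_sub (d.c.e i1 j0) (η * b1), h.abs_e hT0.1.1.1, sum_abs h hb]
  have A0 : 0 < |A| := by linarith
  have xd : ∀ p q : ℤ, |(η * b1 - η * p) / A - (η * b1 - η * q) / A| = η * |(q : ℝ) - p| / |A| :=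
    fun p q => by rw [← sub_div, sub_sub_sub_cancel_left, ← mul_sub, abs_div, abs_mul, abs_of_pos η0]
  have xi : Function.Injective fun p : ℤ => (η * b1 - η * p) / A := fun p q e => by
    have := (div_left_inj' (abs_pos.1 A0)).1 e
    exact_mod_cast mul_left_cancel₀ η0.ne' (sub_right_injective this)
  refine ⟨zc, mem_image_of_mem _ hT0.1.1.1, (hF _ hu0).2, 1 / η ^ σ,
    B.image fun p : ℤ => (η * b1 - η * p) / A,
    fun x => (F.filter fun u => (η * b1 - η * u.2.2.1) / A = x).image fun u => u.2.2.2,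
    fun x => ((d.c.E.image Prod.snd).filter (cz η · = n)).image
      fun z => (1 + x) • gph d η zc (fun l => (l, j0)) z, by positivity, ?_, fun x hx => ?_,
    fun x hx x' hx' hne => ?_, fun x0 r hr => ?_, fun x hx => ⟨?_, ?_, ?_, fun p hp => ?_⟩⟩
  · rw [card_image_of_injective _ xi]
    refine le_trans ?_ ((div_le_div_of_nonneg_right hc (by positivity)).trans B2)
    rw [show 1 / (η ^ 2 * η ^ σ * K1) / (2 * (K / η * (K / η))) = 1 / η ^ σ / (2 * K ^ 2 * K1) by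
      field_simp]
    exact div_le_div_of_nonneg_left (by positivity) (by positivity) q4
  · obtain ⟨p, hp, rfl⟩ := mem_image.1 hx
    refine le_trans ?_ k3
    rw [abs_div, div_le_div_iff₀ A0 γ0]
    have := abs_sub (η * b1) (η * p)
    nlinarith [sum_abs h hb, sum_abs h (hsub (B1 hp))]
  · obtain ⟨p, -, rfl⟩ := mem_image.1 hx
    obtain ⟨q, -, rfl⟩ := mem_image.1 hx'
    have a1 : (1 : ℝ) ≤ |(q : ℝ) - p| := by
      exact_mod_cast Int.one_le_abs (sub_ne_zero.2 fun e => hne (by rw [e]))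
    rw [xd, mul_one_div, one_div_div, div_le_div_iff₀ (by linarith) A0]
    have a2 : |A| ≤ |(q : ℝ) - p| * K' := by nlinarith
    nlinarith
  · rw [one_div_one_div] at hr
    have r0 : 0 < r ^ σ := Real.rpow_pos_of_pos (by linarith) σ
    have a0 : K1 * (r ^ σ / η ^ σ) ≤ K' * (1 / η ^ σ) * r ^ σ := by
      rw [mul_assoc, one_div_mul_eq_div]
      exact mul_le_mul_of_nonneg_right (by linarith) (by positivity)
    rcases le_total r 1 with r1 | r1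
    · refine le_trans (Nat.cast_le.2 ((card_le_card fun x hx => ?_).trans (card_image_le
        (f := fun p : ℤ => (η * b1 - η * p) / A)))) ((tl (η * b1 - x0 * A) r hr r1).trans a0)
      obtain ⟨a1, a2⟩ := mem_filter.1 hx
      obtain ⟨p, hp, rfl⟩ := mem_image.1 a1
      refine mem_image_of_mem _ (mem_filter.2 ⟨hsub (B1 hp), ?_⟩)
      have a3 : η * p - (η * b1 - x0 * A) = -(((η * b1 - η * p) / A - x0) * A) := by
        rw [sub_mul, div_mul_cancel₀ _ (abs_pos.1 A0)]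
        ring
      rw [a3, abs_neg, abs_mul]
      exact (mul_le_mul a2 A2 A0.le (by linarith)).trans (by linarith)
    · refine (Nat.cast_le.2 ((card_filter_le _ _).trans (card_image_le.trans
        (card_le_card (B1.trans hsub))))).trans (ta.trans (le_trans ?_ a0))
      rw [← mul_div_assoc]
      exact div_le_div_of_nonneg_right (le_mul_of_one_le_right (by linarith)
        (Real.one_le_rpow r1 h0.le)) s0.le
  · rw [mul_one_div]
    exact (Nat.cast_le.2 card_image_le).trans ((sum_T h n).trans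
      (div_le_div_of_nonneg_right q5 η0.le))
  · intro p hp
    obtain ⟨u, hu, rfl⟩ := mem_image.1 hp
    exact hG u (mem_filter.1 hu).1
  · obtain ⟨p, hp, rfl⟩ := mem_image.1 hx
    simp only [xi.eq_iff]
    rw [card_image_of_injOn (sum_inj hk)]
    refine le_trans ?_ ((div_le_div_of_nonneg_right hc (by positivity)).trans (B3 p hp))
    rw [show 1 / (η ^ 2 * η ^ σ * K1) / (2 * (K1 / η ^ σ)) = (1 / η) ^ 2 / (2 * K1 ^ 2) by
      field_simp]
    exact div_le_div_of_nonneg_left (by positivity) (by positivity) (by nlinarith)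
  · obtain ⟨⟨i2, b3, b4, z0, z1⟩, hu, rfl⟩ := mem_image.1 hp
    obtain ⟨a1, a2⟩ := mem_filter.1 hu
    obtain ⟨rfl, rfl⟩ : i2 = i1 ∧ b3 = b1 := hk _ a1
    obtain ⟨i', i'', z0', hT, e2, e3⟩ := h.mem_UU.1 (hF _ a1).1
    have a3 : cz η z0 = n := (hF _ a1).2
    refine ⟨_, mem_image_of_mem _ (mem_filter.2 ⟨mem_image_of_mem Prod.snd hT.2.1.1.1,
      hT.2.1.2.2.1.trans (hT.1.2.2.1.symm.trans a3)⟩), (rel h h1 hT hT0.1.1.1
        ((hF _ hu0).2.trans a3.symm) ?_).trans k3⟩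
    rw [e2, e3, ← hA]
    exact a2.symm

end Vale.Agent.P127.L1
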