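import Vale.Agent.P127.Lin1.Defs
import Vale.Agent.P127.G1.Cnt

/-! # P127 Lin1/Wedge (TASK; helper names start with wedge_)
Many wedges.  C1 from rpA, C2 from r1A, constants are at most powers of K (pow_ge).
1. pop1 on E with f ω = (ω.2, cell (1 / N) (pos ω)): the image has at most R = (K / η ^ 2) * (C1 2 ^ (2 D) K N ^ (D - σ)) elements (image_le_mul with Prod.snd, cardZ, rpA with A = 2, β = 1, β' = 1 / N, q = 0, Pre.norm_pos);
with Hy.mass we get E1 ⊆ E, card E1 ≥ nL / (2 η ^ 2 K), every fibre in E1 has at least m0 / K ^ c1 elements (m0 = nL (1 / N) ^ (D - σ), Real.one_div_rpow / inv_rpow).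
2. cs on E1 with ω ↦ (ω.1, cz η ω.2): at most (K nL) (2 / η) values (image_le_mul, cardL, Hy.wins), so the set T of pairs (ω, ω') in E1 with the same line and window has card ≥ nL / (8 η ^ 3 K ^ 3).
3. For (ω, ω') = ((i', z0), (i', z1)) in T the elements (i, z0) of the fibre of ω satisfy Mee d N i i' z0 (cell_close). Those with |e i j0 - e i' j0| < γ = 1 / K ^ c0 have ‖e i - e i'‖ ≤ 2 K η ^ 2 + 2 γ ≤ 4 γ
(Hy.dirM, norm_gv, η ≤ γ, K η ≤ 1), so r1A (A = 4, α = γ, β = 1 / N, p = e i', q = pos (i', z0)) bounds their number by C2 4 ^ (2 D) K m0 γ ^ σ ≤ m0 / (2 K ^ c1) when c0 σ ≥ c1 + c2 + 2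
(γ ^ σ = 1 / K ^ (c0 σ), Real.rpow_natCast, rpow_le_rpow_of_exponent_le). Hence at least m0 / (2 K ^ c1) lines i give a wedge (i, i', z0, z1).
4. fib_le_card (or card_nsmul_le_sum over the fibres of WG → (i', z0, z1)): card WG ≥ card T * m0 / (2 K ^ c1). -/

namespace Vale.Agent.P127.L1

open Finset
open scoped Classical

theorem wedge_cs {Ω β : Type} [DecidableEq β] (E : Finset Ω) (f : Ω → β) :
    (E.card : ℝ) ^ 2 ≤ (E.image f).card * (((E ×ˢ E).filter fun p => f p.1 = f p.2).card : ℝ) := by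
  simpa only [image_cd, filter_cd] using cs E f

theorem wedge_mass {nL H K C1 Lw a e : ℝ} (hnL : 0 < nL) (hN : 0 < H) (hK : 0 < K) (hC : 0 < C1)
    (hL : 0 < Lw) (he : nL * H / K ≤ e) :
    nL * Lw ^ a / (2 * C1 * K ^ 3) ≤ e / (2 * (K * H * (C1 * K * (1 / Lw) ^ a))) := by
  refine le_trans (le_of_eq ?_) (div_le_div_of_nonneg_right he (by positivity))
  rw [Real.div_rpow zero_le_one hL.le, Real.one_rpow]
  have : 0 < Lw ^ a := Real.rpow_pos_of_pos hL a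
  field_simp

variable {D : ℕ} {σ : ℝ} {m : ℕ} {d : Dat D} {j0 : Fin D} {N H K η γ : ℝ}

theorem wedge_T (h : Hy σ m d j0 N H K η) {E1 : Finset (ℕ × ℝ)} (hE : E1 ⊆ d.c.E)
    (hm : (d.c.E.card : ℝ) / 2 ≤ E1.card) : d.c.nL / (8 * η ^ 3 * K ^ 3) ≤
      (((E1 ×ˢ E1).filter fun p => (p.1.1, cz η p.1.2) = (p.2.1, cz η p.2.2)).card : ℝ) := by
  have a1 := wedge_cs E1 fun ω => (ω.1, cz η ω.2)
  have hK := h.K0
  have hη := h.η0
  have hn := h.nL0
  have a2 : ((E1.image fun ω => (ω.1, cz η ω.2)).card : ℝ) ≤ K * d.c.nL * (2 / η) := by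
    have a3 : ((E1.image fun ω => cz η ω.2).card : ℝ) ≤ 2 / η := by
      convert h.wins E1 (fun ω => ω.2) fun ω hω => h.memZ (i := ω.1) (hE hω)
    refine le_trans ?_ (mul_le_mul h.cardL a3 (Nat.cast_nonneg _) (by positivity))
    rw [← Nat.cast_mul, ← card_product, Nat.cast_le]
    refine card_le_card fun y hy => ?_
    obtain ⟨ω, hω, rfl⟩ := mem_image.1 hy
    exact mem_product.2 ⟨h.memL (z := ω.2) (hE hω), mem_image_of_mem _ hω⟩
  have a4 : d.c.nL / (η ^ 2 * K) / 2 ≤ E1.card := by linarith [h.mass]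
  have a5 := (pow_le_pow_left₀ (by positivity) a4 2).trans
    (a1.trans (mul_le_mul_of_nonneg_right a2 (Nat.cast_nonneg _)))
  refine le_of_mul_le_mul_left (le_trans (le_of_eq ?_) a5) (by positivity)
  field_simp
  norm_num

theorem wedge_good (h : Hy σ m d j0 N H K η) (hγ : η ≤ γ) {E1 : Finset (ℕ × ℝ)} (hE : E1 ⊆ d.c.E)
    {i' : ℕ} {z0 μ : ℝ} (hω : (i', z0) ∈ E1)
    (hf : μ ≤ ((E1.filter fun ω => (ω.2, cell (1 / N) (d.c.pos ω)) =
      (z0, cell (1 / N) (d.c.pos (i', z0)))).card : ℝ))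
    (hb : ((d.c.L.filter fun i => (i, z0) ∈ d.c.E ∧ ‖d.c.e i - d.c.e i'‖ ≤ 4 * γ ∧
      ‖d.c.pos (i, z0) - d.c.pos (i', z0)‖ ≤ 4 * (1 / N)).card : ℝ) ≤ μ / 2) :
    μ / 2 ≤ ((d.c.L.filter fun i => Mee d N i i' z0 ∧ γ ≤ |d.c.e i j0 - d.c.e i' j0|).card : ℝ) := by
  have hN : 0 < 1 / N := one_div_pos.2 (by linarith [h.N1])
  have a1 := card_le_card_of_injOn (s := E1.filter fun ω => (ω.2, cell (1 / N) (d.c.pos ω)) =
      (z0, cell (1 / N) (d.c.pos (i', z0))))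
    (t := (d.c.L.filter fun i => Mee d N i i' z0 ∧ γ ≤ |d.c.e i j0 - d.c.e i' j0|) ∪
      d.c.L.filter fun i => (i, z0) ∈ d.c.E ∧ ‖d.c.e i - d.c.e i'‖ ≤ 4 * γ ∧
        ‖d.c.pos (i, z0) - d.c.pos (i', z0)‖ ≤ 4 * (1 / N)) (fun ω => ω.1)
    (fun ω hω' => by
      obtain ⟨i, z⟩ := ω
      obtain ⟨b1, b2⟩ := mem_filter.1 (mem_coe.1 hω')
      obtain rfl : z = z0 := congrArg Prod.fst b2
      have b3 := cell_close hN (congrArg Prod.snd b2)
      have hM : Mee d N i i' z := ⟨hE b1, hE hω, b3⟩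
      refine mem_coe.2 (mem_union.2 ?_)
      by_cases hg : γ ≤ |d.c.e i j0 - d.c.e i' j0|
      · exact Or.inl (mem_filter.2 ⟨h.memL (hE b1), hM, hg⟩)
      · refine Or.inr (mem_filter.2 ⟨h.memL (hE b1), hE b1, ?_, by linarith⟩)
        have b4 := h.dirM hM
        have b5 := norm_add_le (d.c.e i - d.c.e i' - (d.c.e i j0 - d.c.e i' j0) • gv d j0 z)
          ((d.c.e i j0 - d.c.e i' j0) • gv d j0 z)
        rw [sub_add_cancel, norm_smul, Real.norm_eq_abs] at b5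
        have b6 := mul_le_mul (not_le.1 hg).le (h.norm_gv z) (norm_nonneg _) (h.η0.le.trans hγ)
        have b7 := mul_le_mul_of_nonneg_right h.Kη h.η0.le
        show ‖d.c.e i - d.c.e i'‖ ≤ 4 * γ
        linarith)
    fun x hx y hy hxy => Prod.ext hxy ((congrArg Prod.fst (mem_filter.1 (mem_coe.1 hx)).2).trans
      (congrArg Prod.fst (mem_filter.1 (mem_coe.1 hy)).2).symm)
  have a2 := (Nat.cast_le (α := ℝ)).2 (a1.trans (card_union_le _ _))
  rw [Nat.cast_add] at a2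
  linarith

theorem wedge_dc (h : Hy σ m d j0 N H K η) {E1 : Finset (ℕ × ℝ)} (hE : E1 ⊆ d.c.E) {μ : ℝ}
    (hg : ∀ ω ∈ E1, μ ≤ ((d.c.L.filter fun i => Mee d N i ω.1 ω.2 ∧
      γ ≤ |d.c.e i j0 - d.c.e ω.1 j0|).card : ℝ)) :
    (((E1 ×ˢ E1).filter fun p => (p.1.1, cz η p.1.2) = (p.2.1, cz η p.2.2)).card : ℝ) * μ ≤
      (WG d j0 N η γ).card := by
  have key := card_nsmul_le_card_nsmul
    (s := (E1 ×ˢ E1).filter fun p => (p.1.1, cz η p.1.2) = (p.2.1, cz η p.2.2))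
    (t := WG d j0 N η γ) (fun p w => p = ((w.2.1, w.2.2.1), (w.2.1, w.2.2.2))) (m := μ) (n := 1)
    (fun p hp => by
      obtain ⟨⟨i', z0⟩, ⟨i1, z1⟩⟩ := p
      obtain ⟨b1, b2⟩ := mem_filter.1 hp
      obtain ⟨b3, b4⟩ := mem_product.1 b1
      obtain rfl : i' = i1 := congrArg Prod.fst b2
      refine (hg _ b3).trans (Nat.cast_le.2 (card_le_card_of_injOn (fun i => (i, i', z0, z1))
        (fun i hi => ?_) fun x _ y _ hxy => congrArg Prod.fst hxy))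
      obtain ⟨-, b5, b6⟩ := mem_filter.1 (mem_coe.1 hi)
      exact mem_coe.2 (mem_filter.2 ⟨h.mem_WG.2 ⟨b5, hE b4, congrArg Prod.snd b2, b6⟩, rfl⟩))
    fun w _ => by
      rw [← Nat.cast_one, Nat.cast_le]
      exact card_le_one.2 fun x hx y hy => (mem_filter.1 hx).2.trans (mem_filter.1 hy).2.symm
  rwa [nsmul_eq_mul, nsmul_eq_mul, mul_one] at key

theorem wedge_lb (D : ℕ) {σ : ℝ} (h0 : 0 < σ) : ∃ c0 c : ℕ, ∀ (m : ℕ) (d : Dat D) (j0 : Fin D)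
    (N H K η : ℝ), Hy σ m d j0 N H K η → K ^ c0 * η ≤ 1 →
    d.c.nL * m0 σ d N / (η ^ 3 * K ^ c) ≤ (WG d j0 N η (1 / K ^ c0)).card := by
  obtain ⟨C1, hC1, hK⟩ := g1_nK D
  obtain ⟨C2, hC2, hr⟩ := r1A D
  obtain ⟨c1, hc1⟩ := pow_ge (2 * C1)
  obtain ⟨c2, hc2⟩ := pow_ge (2 * (C2 * 4 ^ (2 * D)))
  refine ⟨⌈((c1 + c2 + 4 : ℕ) : ℝ) / σ⌉₊, c1 + 10, fun m d j0 N H K η h hη => ?_⟩
  set c0 := ⌈((c1 + c2 + 4 : ℕ) : ℝ) / σ⌉₊ with hc0
  have hK0 := h.K0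
  have hK1 : 1 ≤ K := by linarith [h.K2]
  have hη0 := h.η0
  have hn := h.nL0
  have hm0 := h.m0_pos
  have hN0 : 0 < N := by linarith [h.N1]
  have hN1 : 1 / N ≤ 1 := (div_le_one hN0).2 h.N1
  have hγ : η ≤ 1 / K ^ c0 := by rwa [le_div_iff₀' (by positivity)]
  have hγ1 : 1 / K ^ c0 ≤ 1 := (div_le_one (by positivity)).2 (one_le_pow₀ hK1)
  have hγσ : (1 / K ^ c0) ^ σ ≤ 1 / K ^ (c1 + c2 + 4) := by
    rw [Real.div_rpow zero_le_one (by positivity), Real.one_rpow, ← Real.rpow_natCast,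
      ← Real.rpow_mul hK0.le, ← Real.rpow_natCast]
    exact one_div_le_one_div_of_le (by positivity)
      (Real.rpow_le_rpow_of_exponent_le hK1 ((div_le_iff₀ h0).1 (Nat.le_ceil _)))
  obtain ⟨E1, hE, hm, hf⟩ := g1_pop d.c.E (fun ω => (ω.2, cell (1 / N) (d.c.pos ω)))
    (hK h.reg h.N1 h.H1 hK0.le le_rfl hN1)
  have a1 := wedge_dc (γ := 1 / K ^ c0) h hE (μ := m0 σ d N / K ^ (c1 + 3) / 2) fun ω hω => by
    refine wedge_good h hγ hE hω (le_trans ?_ ((wedge_mass hn (by linarith [h.H1]) hK0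
      (by linarith) (by positivity) h.reg.good.mass).trans (hf ω hω))) ?_
    · refine div_le_div_of_nonneg_left hm0.le (by positivity) ?_
      rw [pow_add]
      exact mul_le_mul_of_nonneg_right (hc1 K h.K2) (by positivity)
    · refine (hr h.reg h.N1 4 ω.2 _ _ _ _ (by norm_num) le_rfl
        (h.Nη.trans (h.sq_le.trans hγ)) hγ1).trans ?_
      have b1 : C2 * 4 ^ (2 * D) ≤ K ^ c2 / 2 := by linarith [hc2 K h.K2]
      calc _ = C2 * 4 ^ (2 * D) * (1 / K ^ c0) ^ σ * (K * m0 σ d N) := by unfold m0; ring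
        _ ≤ K ^ c2 / 2 * (1 / K ^ (c1 + c2 + 4)) * (K * m0 σ d N) := by gcongr
        _ = _ := by field_simp; ring
  refine le_trans ?_ ((mul_le_mul_of_nonneg_right (wedge_T h hE hm) (by positivity)).trans a1)
  rw [div_div, div_mul_div_comm]
  refine div_le_div_of_nonneg_left (by positivity) (by positivity) ?_
  have b2 : (2 : ℝ) ^ 4 ≤ K ^ 4 := pow_le_pow_left₀ zero_le_two h.K2 4
  calc _ = 2 ^ 4 * (η ^ 3 * K ^ (c1 + 6)) := by ring
    _ ≤ K ^ 4 * (η ^ 3 * K ^ (c1 + 6)) := by gcongr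
    _ = _ := by ring

end Vale.Agent.P127.L1
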