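import Vale.Agent.P127.Lin1.Sum
import Vale.Agent.P127.Lin1.Wedge
import Vale.Agent.P127.Lin1.Pair
import Vale.Agent.P127.Lin1.Fib

/-! # P127 Lin1/Win (helper91): many rich windows. -/

namespace Vale.Agent.P127.L1

open Finset
open scoped Classical

theorem win_UU (D : ℕ) {σ : ℝ} (h0 : 0 < σ) : ∃ c0 a : ℕ, ∀ (m : ℕ) (d : Dat D) (j0 : Fin D)
    (N H K η : ℝ), Hy σ m d j0 N H K η → K ^ (c0 + 1) * η ≤ 1 → 2 * η ≤ 1 / K ^ c0 ∧
    d.c.nL / (η ^ 3 * (η ^ σ) ^ 2 * K ^ a) ≤ (UU d j0 N η (1 / K ^ c0)).card := by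
  obtain ⟨c0, cw, hw⟩ := wedge_lb D h0
  obtain ⟨cp, hp⟩ := pair_lb D
  obtain ⟨cf, hf⟩ := fib_ub D
  refine ⟨c0, 2 * cw + cp + cf + c0, fun m d j0 N H K η h hK => ?_⟩
  have η0 := h.η0
  have K0 := h.K0
  have n0 := h.nL0
  have m1 := h.m0_pos
  have s0 : 0 < η ^ σ := Real.rpow_pos_of_pos η0 σ
  have k0 : 0 < K ^ c0 * η := by positivity
  have k1 : 2 * (K ^ c0 * η) ≤ 1 := by
    rw [pow_succ] at hK
    nlinarith [h.K2]
  have k2 : 2 * η ≤ 1 / K ^ c0 := by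
    rw [le_div_iff₀ (by positivity)]
    linarith
  refine ⟨k2, ?_⟩
  have a1 := (pow_le_pow_left₀ (by positivity) (hw m d j0 N H K η h (by linarith)) 2).trans
    ((hp σ m d j0 N H K η _ h).trans (mul_le_mul_of_nonneg_left (hf σ m d j0 N H K η _ h k2
      (div_le_one_of_le₀ (one_le_pow₀ (by linarith [h.K2])) (by positivity))) (by positivity)))
  rw [← mul_comm (K ^ cf / _ * _), ← mul_assoc, ← div_le_iff₀' (by positivity)] at a1
  refine le_trans (le_of_eq ?_) a1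
  field_simp
  ring

variable {D m : ℕ} {σ : ℝ} {d : Dat D} {j0 : Fin D} {N H K η γ : ℝ}

theorem win_fib {F : Finset (ℕ × ℤ × ℤ × ℝ × ℝ)} {i : ℕ} {b : ℤ} {s : Finset ℤ} {t : Finset ℝ}
    (h : ∀ v ∈ F, v.1 = i ∧ v.2.1 = b ∧ v.2.2.1 ∈ s ∧ v.2.2.2.1 ∈ t ∧ v.2.2.2.2 ∈ t) :
    F.card ≤ s.card * (t.card * t.card) := by
  rw [← card_product, ← card_product]
  refine card_le_card_of_injOn (fun v => v.2.2) (fun v hv => ?_) fun v hv w hw e => ?_
  · exact mem_coe.2 (mem_product.2 ⟨(h v hv).2.2.1, mem_product.2 (h v hv).2.2.2⟩)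
  · exact Prod.ext ((h v hv).1.trans (h w hw).1.symm)
      (Prod.ext ((h v hv).2.1.trans (h w hw).2.1.symm) e)

theorem win_gen (U : Finset (ℕ × ℤ × ℤ × ℝ × ℝ)) (s : ℕ → Finset ℤ) (t : Finset ℝ) {R M : ℝ}
    (h : ∀ v ∈ U, v.2.2.1 ∈ s v.1 ∧ v.2.2.2.1 ∈ t ∧ v.2.2.2.2 ∈ t) (hR : ∀ i, ((s i).card : ℝ) ≤ R)
    (hM : (t.card : ℝ) ≤ M) :
    (U.card : ℝ) ≤ (U.image fun u => (u.1, u.2.1)).card * (R * (M * M)) := by
  have M0 : 0 ≤ M := (Nat.cast_nonneg _).trans hM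
  refine card_le_fib' U _ fun u _ => (Nat.cast_le.2 (win_fib (s := s u.1) (t := t) (i := u.1)
    (b := u.2.1) fun v hv => ?_)).trans ?_
  · obtain ⟨a1, a2⟩ := mem_filter.1 hv
    obtain ⟨a3, a4⟩ := Prod.mk.inj a2
    exact ⟨a3, a4, a3 ▸ (h v a1).1, (h v a1).2⟩
  · rw [Nat.cast_mul, Nat.cast_mul]
    exact mul_le_mul (hR _) (mul_le_mul hM hM (Nat.cast_nonneg _) M0) (by positivity)
      ((Nat.cast_nonneg _).trans (hR 0))

theorem win_ub (h : Hy σ m d j0 N H K η) {n : ℤ} {R : ℝ}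
    (hR : ∀ i, ((TY d j0 N η i n).card : ℝ) ≤ R) :
    (((UU d j0 N η γ).filter fun u => cz η u.2.2.2.1 = n).card : ℝ) ≤
      K * d.c.nL * R * (R * (K / η * (K / η))) := by
  have R0 : 0 ≤ R := (Nat.cast_nonneg _).trans (hR 0)
  have η0 := h.η0
  have K0 := h.K0
  exact (win_gen _ (fun i => TY d j0 N η i n) _ (fun v hv => (sum_ty h (mem_filter.1 hv).1
    (mem_filter.1 hv).2).2.2) hR (sum_T h n)).trans
      (mul_le_mul_of_nonneg_right (sum_keys h hR) (by positivity))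

theorem win_core (D : ℕ) {σ : ℝ} (h0 : 0 < σ) : ∃ c : ℕ, 1 ≤ c ∧ ∀ (m : ℕ) (d : Dat D) (j0 : Fin D)
    (N H K η : ℝ), Hy σ m d j0 N H K η → K ^ c * η ≤ 1 → ∃ W : Finset ℤ,
    1 / η / K ^ c ≤ W.card ∧ ∀ n ∈ W, ∃ z0 ∈ d.c.E.image Prod.snd, cz η z0 = n ∧
      SumD σ (1 / η) (K ^ c) ((d.c.E.image Prod.snd).filter fun z => cz η z = n)
        (gph d η z0 fun l => (l, j0)) := by
  obtain ⟨c0, a, ha⟩ := win_UU D h0
  obtain ⟨ct, ht⟩ := types_all D
  obtain ⟨cl, hl⟩ := types_loc D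
  refine ⟨2 * (a + 3 + ct + cl) + c0 + 6, by omega, fun m d j0 N H K η h hK => ?_⟩
  have η0 := h.η0
  have K0 := h.K0
  have K2 := h.K2
  have n0 := h.nL0
  have s0 : 0 < η ^ σ := Real.rpow_pos_of_pos η0 σ
  have pw : ∀ (p q r : ℕ), p + q ≤ r → 2 ^ p * K ^ q ≤ K ^ r := fun p q r hr =>
    (mul_le_mul_of_nonneg_right (pow_le_pow_left₀ zero_le_two K2 p) (by positivity)).trans
      (by rw [← pow_add]; exact pow_le_pow_right₀ (by linarith) hr)
  have pw0 : ∀ (q r : ℕ), q ≤ r → K ^ q ≤ K ^ r := fun q r => pow_le_pow_right₀ (by linarith)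
  obtain ⟨g1, hU⟩ := ha m d j0 N H K η h
    ((mul_le_mul_of_nonneg_right (pw0 _ _ (by omega)) η0.le).trans hK)
  have hT := ht σ m d j0 N H K η h
  obtain ⟨B, -, B2, B3⟩ := heavy' (UU d j0 N η (1 / K ^ c0)) (fun u => cz η u.2.2.2.1) (R := 2 / η)
    (M := K * d.c.nL * (K ^ ct / η ^ σ) * (K ^ ct / η ^ σ * (K / η * (K / η)))) (by positivity)
    (by
      convert h.wins (UU d j0 N η (1 / K ^ c0)) (fun u => u.2.2.2.1) fun u hu => ?_
      obtain ⟨ω, hω, e⟩ := mem_image.1 (mem_filter.1 (sum_ty h hu rfl).2.2.2.1).1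
      exact e ▸ h.memZ hω) fun u _ => win_ub h fun i => hT i _
  refine ⟨B, le_trans ?_ ((div_le_div_of_nonneg_right hU (by positivity)).trans B2), fun n hn => ?_⟩
  · refine (div_le_div_of_nonneg_left (by positivity) (by positivity)
      (pw 1 (a + 3 + 2 * ct) _ (by omega))).trans_eq ?_
    field_simp
    ring
  · obtain ⟨F, F1, F2, F3⟩ := big_comb' ((UU d j0 N η (1 / K ^ c0)).filter
      fun u => cz η u.2.2.2.1 = n) fun u => (u.1, u.2.1)
    have a1 := ((div_le_div_of_nonneg_right hU (by positivity)).trans (B3 n hn)).trans (F2.trans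
      (mul_le_mul_of_nonneg_right (sum_keys h fun i => hT i n) (Nat.cast_nonneg _)))
    rw [← div_le_iff₀' (by positivity)] at a1
    have a2 : 1 / (η ^ 2 * η ^ σ * K ^ (a + 3 + ct + cl)) ≤ F.card := by
      refine le_trans ((one_div_le_one_div_of_le (by positivity) (mul_le_mul_of_nonneg_left
        (pw 2 (a + 1 + ct) _ (by omega)) (by positivity))).trans_eq ?_) a1
      field_simp
      ring
    obtain ⟨u0, hu0⟩ : F.Nonempty := card_pos.1 (Nat.cast_pos.1 (lt_of_lt_of_le (by positivity) a2))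
    refine sum_core h h0 g1 (fun u hu => mem_filter.1 (F1 hu))
      (fun u hu => Prod.mk.inj (F3 u hu u0 hu0)) (one_le_pow₀ (by linarith)) a2
      ((hT _ n).trans (div_le_div_of_nonneg_right (pw0 _ _ (by omega)) s0.le))
      (fun y r r0 r1 => (hl σ m d j0 N H K η h _ n y r r0 r1).trans (mul_le_mul_of_nonneg_right
        (pw0 _ _ (by omega)) (div_nonneg (Real.rpow_nonneg (by linarith) _) s0.le)))
      (le_trans (le_of_eq (by ring)) (pw 1 (2 + 2 * (a + 3 + ct + cl)) _ (by omega)))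
      (le_trans ?_ (pw 5 (c0 + 1) _ (by omega)))
    rw [div_div_eq_mul_div, div_one, pow_succ K]
    nlinarith [mul_pos K0 (pow_pos K0 c0)]

end Vale.Agent.P127.L1
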